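import Vale.Agent.P122.K931.K0

/-!
# P122 / K931 : comparison of close lines (helper931)

`Clo m l l'` : the lines `l`, `l'` agree at precision `m` up to a bounded integer shift of the position
and up to constants.  Their tubes, boxes and excesses are the same.
-/

set_option autoImplicit false

namespace Vale.Agent.P122.K931

open Filter Topology Vale.Agent.P127 Vale.Agent.P127.Stk Vale.Agent.P127.U Vale.Agent.P127.U.Sys
open Vale.Agent.P127.U.Fi

/-- close lines, up to an integer shift -/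
def Clo {S : Sys} (m : ℕ → ℕ) (l l' : S.RV Ln) : Prop :=
  ∃ (c : ℕ) (z : S.RV (Fin 2 → ℤ)), S.Ae fun i ω => ∀ j,
    |(l' i ω).1 j - (l i ω).1 j - z i ω j| ≤ c * (1 / 2 : ℝ) ^ m i ∧
    |(l' i ω).2 j - (l i ω).2 j| ≤ c * (1 / 2 : ℝ) ^ m i

/-- the box of the same shape around another line -/
def rel {S : Sys} (l : S.RV Ln) (W : S.BX) : S.BX := fun i => ⟨l i, (W i).θ, (W i).k, (W i).j⟩

section

variable {S : Sys} {γ δ : Type} {m : ℕ → ℕ} {l l' : S.RV Ln}

theorem Clo.symm (h : Clo m l l') : Clo m l' l := by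
  obtain ⟨c, z, hz⟩ := h
  refine ⟨c, fun i ω j => -z i ω j, ?_⟩
  filter_upwards [hz] with i hi ω hω j
  obtain ⟨h1, h2⟩ := hi ω hω j
  constructor
  · rw [← abs_neg]
    refine le_trans (le_of_eq ?_) h1
    congr 1
    push_cast
    ring
  · rwa [abs_sub_comm]

theorem Clo.ext {S' : Sys} (e : Ext S' S) (h : Clo m l l') : Clo m (e.pull l) (e.pull l') := by
  obtain ⟨c, z, hz⟩ := h
  exact ⟨c, e.pull z, e.ae hz⟩

theorem Clo.mono {m' : ℕ → ℕ} (h : Clo m l l') (hm : ∀ i, m' i ≤ m i) : Clo m' l l' := by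
  obtain ⟨c, z, hz⟩ := h
  refine ⟨c, z, ?_⟩
  filter_upwards [hz] with i hi ω hω j
  obtain ⟨h1, h2⟩ := hi ω hω j
  have h3 : (c:ℝ) * (1 / 2 : ℝ) ^ m i ≤ c * (1 / 2 : ℝ) ^ m' i :=
    mul_le_mul_of_nonneg_left (hp_anti (hm i)) (Nat.cast_nonneg _)
  exact ⟨h1.trans h3, h2.trans h3⟩

theorem Clo.trans {l'' : S.RV Ln} (h : Clo m l l') (h' : Clo m l' l'') : Clo m l l'' := by
  obtain ⟨c, z, hz⟩ := h
  obtain ⟨c', z', hz'⟩ := h'
  refine ⟨c + c', fun i ω j => z i ω j + z' i ω j, ?_⟩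
  filter_upwards [hz, hz'] with i hi hi' ω hω j
  obtain ⟨h1, h2⟩ := hi ω hω j
  obtain ⟨h3, h4⟩ := hi' ω hω j
  push_cast
  rw [add_mul]
  constructor
  · have e : (l'' i ω).1 j - (l i ω).1 j - ((z i ω j : ℝ) + z' i ω j) =
      ((l' i ω).1 j - (l i ω).1 j - z i ω j) + ((l'' i ω).1 j - (l' i ω).1 j - z' i ω j) := by ring
    rw [e]
    exact (abs_add_le _ _).trans (add_le_add h1 h3)
  · have e : (l'' i ω).2 j - (l i ω).2 j =
      ((l' i ω).2 j - (l i ω).2 j) + ((l'' i ω).2 j - (l' i ω).2 j) := by ring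
    rw [e]
    exact (abs_add_le _ _).trans (add_le_add h2 h4)

/-- the shift is bounded, hence has no entropy -/
theorem shift_zero {c : ℕ} {z : S.RV (Fin 2 → ℤ)} (hl : LnA l) (hl' : LnA l')
    (hz : S.Ae fun i ω => ∀ j, |(l' i ω).1 j - (l i ω).1 j - z i ω j| ≤ c * (1 / 2 : ℝ) ^ m i ∧
      |(l' i ω).2 j - (l i ω).2 j| ≤ c * (1 / 2 : ℝ) ^ m i) (j : Fin 2) {T : Type*} (Y : S.RV T) :
    S.hc (fun i ω => z i ω j) Y = 0 := by
  refine hc_zero_int (2 * (2 + c)) _ _ ?_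
  have key : S.Ae fun i ω => |(z i ω j : ℝ)| ≤ 2 + c := by
    filter_upwards [hl, hl', hz] with i h1 h2 h3 ω hω
    have a1 := (h1 ω hω).1 j
    have a2 := (h2 ω hω).1 j
    have a3 := (h3 ω hω j).1
    have a4 : (c:ℝ) * (1 / 2 : ℝ) ^ m i ≤ c := by
      have := hp_le_one (m i)
      have hc : (0:ℝ) ≤ c := Nat.cast_nonneg _
      nlinarith
    have e : (z i ω j : ℝ) = (l' i ω).1 j - (l i ω).1 j - ((l' i ω).1 j - (l i ω).1 j - z i ω j) := by
      ring
    rw [e]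
    have b1 := abs_sub ((l' i ω).1 j - (l i ω).1 j) ((l' i ω).1 j - (l i ω).1 j - z i ω j)
    have b2 := abs_sub ((l' i ω).1 j) ((l i ω).1 j)
    linarith
  filter_upwards [key] with i hi ω ω' hω hω' _
  have a1 := hi ω hω
  have a2 := hi ω' hω'
  have a3 := abs_sub (z i ω' j : ℝ) (z i ω j)
  have a4 : ((|z i ω' j - z i ω j| : ℤ) : ℝ) ≤ (2 * (2 + c) : ℕ) := by
    push_cast
    linarith
  exact_mod_cast a4

/-- labels of boxes of the same shape around close lines -/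
theorem lab_shift {θ θ' : ℝ} {k j k' j' m₀ : ℕ} (hkj : k ≤ j) (hj : j ≤ m₀) {a a' b b' : Ln}
    {z : Fin 2 → ℤ} {c : ℕ} (ha : ∀ r, |a'.1 r - a.1 r - z r| ≤ c * (1 / 2 : ℝ) ^ m₀ ∧
      |a'.2 r - a.2 r| ≤ c * (1 / 2 : ℝ) ^ m₀)
    (hb : ∀ r, |b'.1 r - b.1 r - z r| ≤ c * (1 / 2 : ℝ) ^ m₀ ∧
      |b'.2 r - b.2 r| ≤ c * (1 / 2 : ℝ) ^ m₀)
    (h : lab θ k j a = lab θ' k' j' b) : LabCl (4 * c + 2) (lab θ k j a') (lab θ' k' j' b') := by
  unfold lab at h
  simp only [Prod.mk.injEq] at h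
  obtain ⟨rfl, rfl, h1, h2, h3⟩ := h
  have e : qa (j - k) θ = qa (j - k) θ' := by unfold qa; rw [h1]
  rw [← e] at h2 h3
  unfold lab
  rw [← h1, ← e]
  set φ := qa (j - k) θ
  unfold fkj at h2 h3
  simp only [Prod.mk.injEq] at h2 h3
  have hp0 := hp_pos m₀
  have hpj : (1 / 2 : ℝ) ^ m₀ ≤ (1 / 2) ^ j := hp_anti hj
  have hpk : (1 / 2 : ℝ) ^ m₀ ≤ (1 / 2) ^ k := hp_anti (hkj.trans hj)
  have hc : (0:ℝ) ≤ c := Nat.cast_nonneg _
  -- difference of the differences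
  have key : ∀ (v v' w w' : Fin 2 → ℝ) (ζ : Fin 2 → ℝ), (∀ r, |v' r - v r - ζ r| ≤ c * (1 / 2 : ℝ) ^ m₀) →
      (∀ r, |w' r - w r - ζ r| ≤ c * (1 / 2 : ℝ) ^ m₀) → ∀ r, ∀ q, (1 / 2 : ℝ) ^ m₀ ≤ (1 / 2) ^ q →
      |co φ v r - co φ w r| ≤ (1 / 2 : ℝ) ^ q →
      |co φ v' r - co φ w' r| ≤ ((4 * c + 1 : ℕ) : ℝ) * (1 / 2 : ℝ) ^ q := by
    intro v v' w w' ζ hv hw r q hq hvw
    have d1 : ∀ r, |(v' r - v r - ζ r) - (w' r - w r - ζ r)| ≤ 2 * (c * (1 / 2 : ℝ) ^ m₀) := fun r =>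
      (abs_sub _ _).trans (by have := hv r; have := hw r; linarith)
    have d2 := abs_co_le (θ := φ) (v := fun r => (v' r - v r - ζ r) - (w' r - w r - ζ r)) d1 r
    have d3 : co φ v' r - co φ w' r = (co φ v r - co φ w r) +
        co φ (fun r => (v' r - v r - ζ r) - (w' r - w r - ζ r)) r := by
      have e1 : (fun r => (v' r - v r - ζ r) - (w' r - w r - ζ r)) =
        fun r => (fun r => (fun r => v' r - v r) r - (fun r => w' r - w r) r) r := by
        funext r; ring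
      rw [e1, co_sub, co_sub, co_sub]
      ring
    rw [d3]
    refine (abs_add_le _ _).trans ?_
    push_cast
    have d4 : 2 * (2 * (c * (1 / 2 : ℝ) ^ m₀)) ≤ 4 * c * (1 / 2 : ℝ) ^ q := by nlinarith
    linarith
  have p0 := key a.1 a'.1 b.1 b'.1 (fun r => z r) (fun r => (ha r).1) (fun r => (hb r).1)
  have p1 := key a.2 a'.2 b.2 b'.2 (fun _ => 0) (fun r => by simpa using (ha r).2)
    (fun r => by simpa using (hb r).2)
  refine ⟨rfl, rfl, rfl, ?_, ?_, ?_, ?_⟩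
  · have := fl1_sub_le (p0 0 k hpk (fl1_close h2.1))
    refine this.trans (le_of_eq ?_)
    push_cast
    ring
  · have := fl1_sub_le (p0 1 j hpj (fl1_close h2.2))
    refine this.trans (le_of_eq ?_)
    push_cast
    ring
  · have := fl1_sub_le (p1 0 k hpk (fl1_close h3.1))
    refine this.trans (le_of_eq ?_)
    push_cast
    ring
  · have := fl1_sub_le (p1 1 j hpj (fl1_close h3.2))
    refine this.trans (le_of_eq ?_)
    push_cast
    ring

/-- boxes of the same shape around close lines : the labels determine each other -/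
theorem rel_zero (hl : LnA l) (hl' : LnA l') (h : Clo m l l') {W : S.BX} (hWA : BxA W)
    (hW : S.Ae fun i ω => (W i).l ω = l i ω ∧ (W i).j ω ≤ m i) :
    S.hc (rel l' W).lab W.lab = 0 := by
  obtain ⟨c, z, hz⟩ := h
  have h0 : BxA (rel l' W) := by
    obtain ⟨g1, g2⟩ := hWA
    refine ⟨?_, g2⟩
    filter_upwards [g1, hl'] with i a1 a2 ω hω
    exact ⟨a2 ω hω, (a1 ω hω).2⟩
  set zz : S.RV (ℤ × ℤ) := fun i ω => (z i ω 0, z i ω 1) with hzz
  have tz : ∀ j, Tame (S := S) (fun i ω => z i ω j) := by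
    intro j
    obtain ⟨C, hC⟩ := (Tame.mono (S := S) (X := one (S := S)) hWA.tame
      (Eventually.of_forall fun _ _ _ _ _ _ => rfl) : Tame (one (S := S)))
    refine tame_of_zero (Y := one (S := S)) ⟨C, hC⟩ ?_
    -- bounded entropy
    refine ⟨1, ?_⟩
    have key : S.Ae fun i ω => |(z i ω j : ℝ)| ≤ 2 + c := by
      filter_upwards [hl, hl', hz] with i h1 h2 h3 ω hω
      have a1 := (h1 ω hω).1 j
      have a2 := (h2 ω hω).1 j
      have a3 := (h3 ω hω j).1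
      have a4 : (c:ℝ) * (1 / 2 : ℝ) ^ m i ≤ c := by
        have := hp_le_one (m i)
        have hc : (0:ℝ) ≤ c := Nat.cast_nonneg _
        nlinarith
      have e : (z i ω j : ℝ) =
        (l' i ω).1 j - (l i ω).1 j - ((l' i ω).1 j - (l i ω).1 j - z i ω j) := by ring
      rw [e]
      have b1 := abs_sub ((l' i ω).1 j - (l i ω).1 j) ((l' i ω).1 j - (l i ω).1 j - z i ω j)
      have b2 := abs_sub ((l' i ω).1 j) ((l i ω).1 j)
      linarith
    have hbig : ∀ᶠ i in (uf : Filter ℕ), Real.log ((2 * (2 * (2 + c)) + 1 : ℕ)) ≤ S.nm i :=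
      S.nm_tendsto.eventually_ge_atTop _
    filter_upwards [key, hbig] with i hi hb
    have h1 := near_int (S.P i) (fun ω => z i ω j) (fun _ => ()) (fun _ => 2 * (2 + c))
      (fun ω ω' hω hω' _ => by
        have a1 := hi ω hω
        have a2 := hi ω' hω'
        have a3 := abs_sub (z i ω' j : ℝ) (z i ω j)
        have a4 : ((|z i ω' j - z i ω j| : ℤ) : ℝ) ≤ (2 * (2 + c) : ℕ) := by
          push_cast
          linarith
        exact_mod_cast a4)
    rw [(S.P i).ex_const] at h1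
    rw [one_mul]
    exact h1.trans hb
  have tzz : Tame zz := (tz 0).pr (tz 1)
  have h1 : S.hc (rel l' W).lab (Sys.pr zz W.lab) = 0 := by
    refine hc_zero_of_le (Real.log (((2 * (4 * c + 2) + 1) ^ 4 : ℕ) : ℝ)) ?_
    filter_upwards [hz, hW, hWA.1] with i g1 g2 g3
    refine ExcB.hc_labCl' (S.P i) _ _ (4 * c + 2) fun ω ω' hω hω' e => ?_
    simp only [pr_apply, Prod.mk.injEq] at e
    obtain ⟨e1, e2⟩ := e
    have e1' : z i ω' 0 = z i ω 0 ∧ z i ω' 1 = z i ω 1 := Prod.mk.inj e1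
    have e3 : z i ω' = z i ω := by
      funext r
      fin_cases r
      · exact e1'.1
      · exact e1'.2
    have e4 : U.lab ((W i).θ ω') ((W i).k ω') ((W i).j ω') (l i ω') =
        U.lab ((W i).θ ω) ((W i).k ω) ((W i).j ω) (l i ω) := by
      rw [← (g2 ω hω).1, ← (g2 ω' hω').1]
      exact e2
    have b1 := g1 ω hω
    have b2 := g1 ω' hω'
    rw [e3] at b2
    exact lab_shift (g3 ω' hω').2.2 (g2 ω' hω').2 b2 b1 e4
  have h2 : S.hc zz W.lab = 0 := hc_zero_pair (tz 0) (tz 1) (shift_zero hl hl' hz 0 _)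
    (shift_zero hl hl' hz 1 _)
  have h3 := hc_le_add h0.tame tzz W.lab
  have h4 := hc_nonneg h0.tame W.lab
  linarith

/-- the other direction -/
theorem rel_zero' (hl : LnA l) (hl' : LnA l') (h : Clo m l l') {W : S.BX} (hWA : BxA W)
    (hW : S.Ae fun i ω => (W i).l ω = l i ω ∧ (W i).j ω ≤ m i) :
    S.hc W.lab (rel l' W).lab = 0 := by
  have h0 : BxA (rel l' W) := by
    obtain ⟨g1, g2⟩ := hWA
    refine ⟨?_, g2⟩
    filter_upwards [g1, hl'] with i a1 a2 ω hω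
    exact ⟨a2 ω hω, (a1 ω hω).2⟩
  have h1 := rel_zero (W := rel l' W) hl' hl h.symm h0 (by
    filter_upwards [hW] with i hi ω hω
    exact ⟨rfl, (hi ω hω).2⟩)
  refine Eq.trans (hc_congr ?_ ?_ (Eventually.of_forall fun _ _ _ _ _ e => e)
    (Eventually.of_forall fun _ _ _ _ _ e => e)) h1
  · filter_upwards [hW] with i hi ω ω' hω hω' e
    have e1 : U.lab ((W i).θ ω) ((W i).k ω) ((W i).j ω) (l i ω) =
      U.lab ((W i).θ ω') ((W i).k ω') ((W i).j ω') (l i ω') := congrArg Prod.fst e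
    show U.lab _ _ _ ((W i).l ω) = U.lab _ _ _ ((W i).l ω')
    rw [(hi ω hω).1, (hi ω' hω').1, e1]
  · filter_upwards [hW] with i hi ω ω' hω hω' e
    have e1 : U.lab ((W i).θ ω) ((W i).k ω) ((W i).j ω) ((W i).l ω) =
      U.lab ((W i).θ ω') ((W i).k ω') ((W i).j ω') ((W i).l ω') := congrArg Prod.fst e
    rw [(hi ω hω).1, (hi ω' hω').1] at e1
    exact e1

theorem rel_bxA (hl' : LnA l') {W : S.BX} (hWA : BxA W) : BxA (rel l' W) := by
  obtain ⟨g1, g2⟩ := hWA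
  refine ⟨?_, g2⟩
  filter_upwards [g1, hl'] with i a1 a2 ω hω
  exact ⟨a2 ω hω, (a1 ω hω).2⟩

theorem rel_tubes (m : ℕ → ℕ) (l l' : S.RV Ln) : rel l' (tubes m l) = tubes m l' := rfl

theorem tubes_zero (hm : S.Bd m) (hl : LnA l) (hl' : LnA l') (h : Clo m l l') :
    S.hc (BX.lab (tubes m l')) (BX.lab (tubes m l)) = 0 := by
  have h1 := rel_zero (W := tubes m l) hl hl' h (tubes_bxA hm hl)
    (Ae.of_all fun i ω => ⟨rfl, le_rfl⟩)
  rw [rel_tubes] at h1
  exact h1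

/-- the value of a box does not depend on the representative of the line -/
theorem val_rel (hm : S.Bd m) (hl : LnA l) (hl' : LnA l') (h : Clo m l l') {W : S.BX}
    (hW : SubA (tubes m l) W) {C : S.RV γ} {C' : S.RV δ} (tC : Tame C) (tC' : Tame C')
    (h1 : S.hc C C' = 0) (h2 : S.hc C' C = 0) :
    S.val (tubes m l') (rel l' W) C' = S.val (tubes m l) W C := by
  have hB : BxA (tubes m l) := tubes_bxA hm hl
  have hWA : BxA W := bxA_of_sub hB hW
  have hW' : S.Ae fun i ω => (W i).l ω = l i ω ∧ (W i).j ω ≤ m i := by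
    obtain ⟨c, hc⟩ := hW
    filter_upwards [hc] with i hi ω hω
    obtain ⟨a1, -, -, -, a5, -⟩ := hi ω hω
    exact ⟨a1, a5⟩
  have z1 := rel_zero hl hl' h hWA hW'
  have z2 := rel_zero' hl hl' h hWA hW'
  have z3 : S.hc (BX.lab (tubes m l')) (BX.lab (tubes m l)) = 0 := tubes_zero hm hl hl' h
  have z4 : S.hc (BX.lab (tubes m l)) (BX.lab (tubes m l')) = 0 := tubes_zero hm hl' hl h.symm
  have t1 : Tame (BX.lab (tubes m l)) := hB.tame
  have t2 : Tame (BX.lab (tubes m l')) := (tubes_bxA hm hl').tame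
  have t3 : Tame W.lab := hWA.tame
  have t4 : Tame (rel l' W).lab := (rel_bxA hl' hWA).tame
  have e0 : S.val (tubes m l') (rel l' W) C' = S.hc (BX.lab (tubes m l')) (Sys.pr (rel l' W).lab C') -
    S.av (fun i ω => (tubes m l' i).sz ω - (rel l' W i).sz ω) := rfl
  have e0' : S.val (tubes m l) W C = S.hc (BX.lab (tubes m l)) (Sys.pr W.lab C) -
    S.av (fun i ω => (tubes m l i).sz ω - (W i).sz ω) := rfl
  have e1 : S.hc (BX.lab (tubes m l')) (Sys.pr (rel l' W).lab C') =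
      S.hc (BX.lab (tubes m l)) (Sys.pr (rel l' W).lab C') :=
    hc_eq_of_zero t2 t1 (zero_more t2 z3) (zero_more t1 z4)
  have e2 : S.hc (BX.lab (tubes m l)) (Sys.pr (rel l' W).lab C') =
      S.hc (BX.lab (tubes m l)) (Sys.pr W.lab C) := by
    refine hc_cond_zero' (Y := W.lab) t1 (t4.pr tC') (t3.pr tC) ?_ ?_
    · exact hc_zero_pair t4 tC' (zero_more t4 z1)
        (hc_zero_mono tC' h2 (Eventually.of_forall fun _ _ _ _ _ e => congrArg Prod.snd e))
    · exact hc_zero_pair t3 tC (zero_more t3 z2)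
        (hc_zero_mono tC h1 (Eventually.of_forall fun _ _ _ _ _ e => congrArg Prod.snd e))
  have e3 : S.av (fun i ω => (tubes m l' i).sz ω - (rel l' W i).sz ω) =
      S.av (fun i ω => (tubes m l i).sz ω - (W i).sz ω) := rfl
  rw [e0, e0', e1, e2, e3]

theorem rel_sub {W : S.BX} (hW : SubA (tubes m l) W) : SubA (tubes m l') (rel l' W) := by
  obtain ⟨c, hc⟩ := hW
  refine ⟨c, ?_⟩
  filter_upwards [hc] with i hi ω hω
  obtain ⟨-, a2, a3, a4, a5, a6⟩ := hi ω hω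
  exact ⟨rfl, a2, a3, a4, a5, a6⟩

theorem exc_clo_le (hm : S.Bd m) (hl : LnA l) (hl' : LnA l') (h : Clo m l l') {C : S.RV γ}
    {C' : S.RV δ} (tC : Tame C) (tC' : Tame C') (h1 : S.hc C C' = 0) (h2 : S.hc C' C = 0) :
    S.exc (tubes m l) C ≤ S.exc (tubes m l') C' := by
  have hB : BxA (tubes m l) := tubes_bxA hm hl
  have hB' : BxA (tubes m l') := tubes_bxA hm hl'
  obtain ⟨S', e, W, hWA, hWS, hWv, -⟩ := pExcAtt S _ C (tubes m l) hB
  have hm' : S'.Bd m := by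
    obtain ⟨c, hc⟩ := hm
    exact ⟨c, by rw [e.L_eq]; exact hc⟩
  have k1 : S'.val (tubes m (e.pull l')) (rel (e.pull l') W) (e.pull C') =
      S'.val (tubes m (e.pull l)) W (e.pull C) :=
    val_rel hm' (ext_lnA e hl) (ext_lnA e hl') (h.ext e) hWS (e.tame tC) (e.tame tC')
      ((e.hc C C').trans h1) ((e.hc C' C).trans h2)
  have k2 := pExcLe S S' e _ C' (tubes m l') (rel (e.pull l') W) hB'
    (rel_bxA (ext_lnA e hl') hWA) (rel_sub (l := e.pull l) hWS)
  have k3 : S'.val (tubes m (e.pull l)) W (e.pull C) = S.exc (tubes m l) C := hWv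
  have k4 : S'.val (tubes m (e.pull l')) (rel (e.pull l') W) (e.pull C') ≤ S.exc (tubes m l') C' := k2
  linarith

/-- **the excess does not depend on the representative of the line** -/
theorem exc_clo (hm : S.Bd m) (hl : LnA l) (hl' : LnA l') (h : Clo m l l') {C : S.RV γ}
    {C' : S.RV δ} (tC : Tame C) (tC' : Tame C') (h1 : S.hc C C' = 0) (h2 : S.hc C' C = 0) :
    S.exc (tubes m l) C = S.exc (tubes m l') C' :=
  le_antisymm (exc_clo_le hm hl hl' h tC tC' h1 h2) (exc_clo_le hm hl' hl h.symm tC' tC h2 h1)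

end

end Vale.Agent.P122.K931
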