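import Vale.Agent.P122.E.Defs
import Vale.Agent.P122.K931.Cmp
import Vale.Agent.P122.H474.Path

/-!
# P122 / K931 : tubes, pieces and balls of a system of flags (helper931)

Deterministic geometry (`Geo`) and its consequences for a system of flags: variables which determine each
other up to zero entropy.
-/

set_option autoImplicit false

namespace Vale.Agent.P122.K931

open Filter Topology Finset Vale.Agent.P127 Vale.Agent.P127.Stk Vale.Agent.P127.U Vale.Agent.P127.U.Sys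
open Vale.Agent.P127.U.Fi Vale.Agent.P122.C2 Vale.Agent.P122.E

/-! ### geometry of two levels of a path -/

/-- `A` is the tube of level `c`, `B` the tube of level `d ≥ c` of the same path -/
structure Geo (C' : ℝ) (n c d : ℕ) (s : ℕ → Z2 → Fin 2 → ℝ) (A B : Nd) : Prop where
  cap : ∀ k, A.τ k = B.τ k / 2 ^ ((d - c) * n)
  T : B.T = A.T / 2 ^ (2 * ((d - c) * n))
  capA : Cap n c A.τ
  capB : Cap n d B.τ
  sl : ∀ k, |s c A.τ k - s d B.τ k| ≤ C' / 2 ^ (c * n)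
  pos : ∀ k, |2 ^ (c * n) * (A.o k : ℝ) - (2 ^ (d * n) * (B.o k : ℝ) +
    (2 ^ (2 * (c * n)) * (A.T : ℝ) - 2 ^ (2 * (d * n)) * (B.T : ℝ)) * s d B.τ k)| ≤ C' * 2 ^ (d * n)

theorem ediv_close {a b : ℤ} {N : ℕ} {C : ℕ} (hN : 0 < N) (h : |(a:ℝ) - b| ≤ C * N) :
    |a / (N:ℤ) - b / (N:ℤ)| ≤ C + 1 := by
  have hN' : (0:ℝ) < N := by exact_mod_cast hN
  have e1 : (a / (N:ℤ) : ℤ) = ⌊(a:ℝ) / N⌋ := by
    rw [Int.floor_div_natCast, Int.floor_intCast]
  have e2 : (b / (N:ℤ) : ℤ) = ⌊(b:ℝ) / N⌋ := by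
    rw [Int.floor_div_natCast, Int.floor_intCast]
  rw [e1, e2]
  have h1 : |(a:ℝ) / N - b / N| ≤ C := by
    rw [← sub_div, abs_div, abs_of_pos hN', div_le_iff₀ hN']
    exact h
  have h2 := Int.floor_le ((a:ℝ) / N)
  have h3 := Int.lt_floor_add_one ((a:ℝ) / N)
  have h4 := Int.floor_le ((b:ℝ) / N)
  have h5 := Int.lt_floor_add_one ((b:ℝ) / N)
  have h6 := abs_le.1 h1
  have h7 : ((⌊(a:ℝ) / N⌋ - ⌊(b:ℝ) / N⌋ : ℤ) : ℝ) < C + 1 := by push_cast; linarith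
  have h8 : (-(C + 1) : ℝ) < ((⌊(a:ℝ) / N⌋ - ⌊(b:ℝ) / N⌋ : ℤ) : ℝ) := by push_cast; linarith
  have h9 : ⌊(a:ℝ) / N⌋ - ⌊(b:ℝ) / N⌋ < C + 1 := by exact_mod_cast h7
  have h10 : -((C:ℤ) + 1) < ⌊(a:ℝ) / N⌋ - ⌊(b:ℝ) / N⌋ := by
    have : ((-((C:ℤ) + 1) : ℤ) : ℝ) < ((⌊(a:ℝ) / N⌋ - ⌊(b:ℝ) / N⌋ : ℤ) : ℝ) := by
      push_cast at h8 ⊢
      linarith
    exact_mod_cast this
  rw [abs_le]
  constructor <;> omega

theorem close_of_ediv {a b : ℤ} {N : ℕ} (hN : 0 < N) (h : a / (N:ℤ) = b / (N:ℤ)) :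
    |(a:ℝ) - b| ≤ N := by
  have hN' : (0:ℤ) < N := by exact_mod_cast hN
  have h1 := Int.emod_nonneg a hN'.ne'
  have h2 := Int.emod_lt_of_pos a hN'
  have h3 := Int.emod_nonneg b hN'.ne'
  have h4 := Int.emod_lt_of_pos b hN'
  have h5 := Int.mul_ediv_add_emod a N
  have h6 := Int.mul_ediv_add_emod b N
  rw [h] at h5
  have h7 : a - b = a % N - b % N := by linarith
  have h8 : |a - b| ≤ (N:ℤ) := by
    rw [h7, abs_le]
    constructor <;> linarith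
  exact_mod_cast h8

/-! ### zero entropy -/

section zero

variable {S : Sys} {γ : Type*}

/-- a vector of integers known up to constants -/
theorem zero_vec (C : ℕ) (X : S.RV Z2) (Y : S.RV γ)
    (h : ∀ᶠ i in (uf : Filter ℕ), ∀ ω ω', 0 < (S.P i).w ω → 0 < (S.P i).w ω' →
      Y i ω' = Y i ω → ∀ k, |X i ω' k - X i ω k| ≤ C) : S.hc X Y = 0 := by
  have h1 := hc_zero_fl (S := S) (fun _ => 0) C (fun i ω k => (X i ω k : ℝ)) Y (by
    filter_upwards [h] with i hi ω ω' hω hω' e k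
    have := hi ω ω' hω hω' e k
    rw [pow_zero, mul_one]
    exact_mod_cast this)
  have e : dgv (S := S) (fun _ => 0) (fun i ω k => (X i ω k : ℝ)) = X := by
    funext i ω k
    show ⌊(2:ℝ) ^ 0 * (X i ω k : ℝ)⌋ = X i ω k
    rw [pow_zero, one_mul, Int.floor_intCast]
  rwa [e] at h1

/-- a node known up to constants -/
theorem zero_nd (C : ℕ) (X : S.RV Nd) (Y : S.RV γ)
    (h : ∀ᶠ i in (uf : Filter ℕ), ∀ ω ω', 0 < (S.P i).w ω → 0 < (S.P i).w ω' →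
      Y i ω' = Y i ω → (X i ω').T = (X i ω).T ∧ (∀ k, |(X i ω').τ k - (X i ω).τ k| ≤ C) ∧
        ∀ k, |(X i ω').o k - (X i ω).o k| ≤ C) : S.hc X Y = 0 := by
  classical
  refine hc_zero_of_le (Real.log ((((2 * C + 1) ^ 2 * (2 * C + 1) ^ 2 : ℕ)) : ℝ)) ?_
  filter_upwards [h] with i hi
  refine Stk.hc_le_log (S.P i) (X i) _ _ fun ω hω => ?_
  set x := X i ω with hx
  let B : Z2 → Finset Z2 := fun v => Fintype.piFinset fun k => Finset.Icc (v k - C) (v k + C)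
  have hB : ∀ v, (B v).card = (2 * C + 1) ^ 2 := by
    intro v
    show (Fintype.piFinset fun k => Finset.Icc (v k - C) (v k + C)).card = _
    rw [Fintype.card_piFinset]
    have : ∀ k, (Finset.Icc (v k - C) (v k + C)).card = 2 * C + 1 := by
      intro k
      rw [Int.card_Icc]
      omega
    simp only [this, Finset.prod_const, Finset.card_univ, Fintype.card_fin]
  have hmem : ∀ v w : Z2, (∀ k, |w k - v k| ≤ C) → w ∈ B v := by
    intro v w hvw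
    show w ∈ Fintype.piFinset fun k => Finset.Icc (v k - C) (v k + C)
    rw [Fintype.mem_piFinset]
    intro k
    have := abs_le.1 (hvw k)
    rw [Finset.mem_Icc]
    constructor <;> linarith [this.1, this.2]
  refine ⟨(B x.τ ×ˢ B x.o).image fun p => ⟨p.1, p.2, x.T⟩, ?_, ?_⟩
  · refine Finset.card_image_le.trans ?_
    rw [Finset.card_product, hB, hB]
  · intro ω' hω' e
    obtain ⟨h1, h2, h3⟩ := hi ω ω' hω hω' e
    rw [Finset.mem_image]
    refine ⟨((X i ω').τ, (X i ω').o), ?_, ?_⟩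
    · rw [Finset.mem_product]
      exact ⟨hmem _ _ h2, hmem _ _ h3⟩
    · rw [← h1]

/-- integers of size `2^(O(L))` are tame -/
theorem tame_int {N : ℕ → ℕ} (hN : S.Bd N) (C : ℕ) (X : S.RV ℤ)
    (h : S.Ae fun i ω => |(X i ω : ℝ)| ≤ C * 2 ^ N i) : Tame X := by
  have h1 := Sys.tame_dg (S := S) hN (X := fun i ω => (X i ω : ℝ) / 2 ^ N i) C (by
    filter_upwards [h] with i hi ω hω
    have h2 : (0:ℝ) < 2 ^ N i := by positivity
    rw [abs_div, abs_of_pos h2, div_le_iff₀ h2]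
    exact hi ω hω)
  have e : dg (S := S) N (fun i ω => (X i ω : ℝ) / 2 ^ N i) = X := by
    funext i ω
    show ⌊(2:ℝ) ^ N i * ((X i ω : ℝ) / 2 ^ N i)⌋ = X i ω
    rw [mul_div_cancel₀ _ (by positivity), Int.floor_intCast]
  rwa [e] at h1

end zero

/-! ### numbers of digits -/

section digits

variable {K : ℕ} (F : Flg K)

/-- number of digits of the time of a ball of level `c` in a ball of level `d` -/
def ds (c d : ℕ) : ℕ → ℕ := fun i => 2 * ((d - c) * F.n i)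

theorem bd_mul (hK : 1 ≤ K) (a : ℕ) : F.S.Bd (fun i => a * F.n i) := by
  refine ⟨a, Eventually.of_forall fun i => ?_⟩
  have h1 : F.n i ≤ F.S.L i := by
    rw [F.L_eq]
    exact Nat.le_mul_of_pos_left _ hK
  have h2 : (F.n i : ℝ) ≤ F.S.L i := by exact_mod_cast h1
  push_cast
  exact mul_le_mul_of_nonneg_left h2 (Nat.cast_nonneg _)

theorem bd_m (hK : 1 ≤ K) (c : ℕ) : F.S.Bd (F.m c) := bd_mul F hK c

theorem nu_mul (hK : 1 ≤ K) (a : ℕ) : F.S.nu (fun i => a * F.n i) = (a:ℝ) / K := by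
  unfold nu
  rw [← ulim_const ((a:ℝ) / K)]
  refine ulim_congr ?_
  filter_upwards [F.S.L_pos] with i hi
  have h1 := F.L_eq i
  have hK' : (K:ℝ) ≠ 0 := by
    have : (0:ℝ) < K := by exact_mod_cast hK
    exact this.ne'
  have h2 : (F.n i : ℝ) ≠ 0 := by
    intro h0
    have h3 : F.n i = 0 := by exact_mod_cast h0
    rw [h3, mul_zero] at h1
    omega
  rw [h1]
  push_cast
  field_simp

theorem nu_m (hK : 1 ≤ K) (c : ℕ) : F.S.nu (F.m c) = (c:ℝ) / K := nu_mul F hK c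

theorem nu_ds (hK : 1 ≤ K) {c d : ℕ} (hcd : c ≤ d) : F.S.nu (ds F c d) = 2 * ((d:ℝ) - c) / K := by
  have h1 : ds F c d = fun i => (2 * (d - c)) * F.n i := by
    funext i
    show 2 * ((d - c) * F.n i) = _
    ring
  rw [h1, nu_mul F hK]
  push_cast [Nat.cast_sub hcd]
  ring

theorem par_ds (hK : 1 ≤ K) {c d : ℕ} (hcd : c ≤ d) (hd : d ≤ 2 * c) :
    Par F.S (F.m d) (ds F c d) (F.m (2 * c - d)) := by
  refine ⟨fun i => ?_, bd_m F hK d⟩
  show 2 * ((d - c) * F.n i) + (2 * c - d) * F.n i = d * F.n i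
  rw [← mul_assoc, ← add_mul]
  congr 1
  omega

/-- the time of the block of level `c` in the block of level `d` -/
noncomputable def tm (c d : ℕ) : F.S.RV ℝ := fun i ω =>
  ((F.T c i ω % 2 ^ (ds F c d i) : ℤ) : ℝ) / 2 ^ (ds F c d i)

theorem tm_t01 (c d : ℕ) : T01 (tm F c d) := by
  refine Ae.of_all fun i ω => ?_
  have hp : (0:ℤ) < 2 ^ (ds F c d i) := by positivity
  have h1 := Int.emod_nonneg (F.T c i ω) hp.ne'
  have h2 := Int.emod_lt_of_pos (F.T c i ω) hp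
  have hp' : (0:ℝ) < 2 ^ (ds F c d i) := by positivity
  have h1' : (0:ℝ) ≤ ((F.T c i ω % 2 ^ (ds F c d i) : ℤ) : ℝ) := by exact_mod_cast h1
  have h2' : ((F.T c i ω % 2 ^ (ds F c d i) : ℤ) : ℝ) ≤ 2 ^ (ds F c d i) := by exact_mod_cast h2.le
  constructor
  · exact div_nonneg h1' hp'.le
  · exact (div_le_one hp').2 h2'

theorem fl1_tm (c d : ℕ) (i : ℕ) (ω : F.S.Ω i) :
    fl1 (ds F c d i) (tm F c d i ω) = F.T c i ω % 2 ^ (ds F c d i) := by
  show ⌊(2:ℝ) ^ (ds F c d i) * (((F.T c i ω % 2 ^ (ds F c d i) : ℤ) : ℝ) / 2 ^ (ds F c d i))⌋ = _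
  rw [mul_div_cancel₀ _ (by positivity), Int.floor_intCast]

theorem qa_tm (c d : ℕ) (i : ℕ) (ω : F.S.Ω i) :
    qa (ds F c d i) (tm F c d i ω) = tm F c d i ω := by
  unfold qa
  rw [fl1_tm]
  rfl

end digits

/-! ### geometry in normalised coordinates -/

section norm

variable {K : ℕ} {F : Flg K} {C' : ℝ} {c d : ℕ}

/-- hypothesis: the geometry of the levels `c ≤ d` -/
def HG (F : Flg K) (C' : ℝ) (c d : ℕ) : Prop :=
  ∀ i ω, 0 < (F.S.P i).w ω → Geo C' (F.n i) c d (F.s i) (F.N c i ω) (F.N d i ω)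

/-- position of the tube of level `c` in units of the ball of level `c` -/
noncomputable def xx (F : Flg K) (c : ℕ) (i : ℕ) (ω : F.S.Ω i) (k : Fin 2) : ℝ :=
  ((F.N c i ω).o k : ℝ) / 2 ^ (c * F.n i)

/-- `T_c mod 2^s = T_c - 2^s T_d` -/
theorem T_eq (hG : HG F C' c d) {i : ℕ} {ω : F.S.Ω i} (hω : 0 < (F.S.P i).w ω) :
    F.T c i ω = 2 ^ (ds F c d i) * F.T d i ω + F.T c i ω % 2 ^ (ds F c d i) := by
  have h1 := (hG i ω hω).T
  have h2 := Int.mul_ediv_add_emod (F.T c i ω) (2 ^ (ds F c d i))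
  have h3 : F.T d i ω = F.T c i ω / 2 ^ (ds F c d i) := h1
  rw [h3]
  exact h2.symm

/-- (G1) : the position of the tube of level `c` from the tube of level `d` -/
theorem geo1 (hG : HG F C' c d) (hcd : c ≤ d) (hd : d ≤ 2 * c) {i : ℕ} {ω : F.S.Ω i}
    (hω : 0 < (F.S.P i).w ω) (k : Fin 2) :
    |xx F c i ω k - 2 ^ (ds F c d i) * (xx F d i ω k + tm F c d i ω * F.s i d (F.N d i ω).τ k)| ≤
      C' * (1 / 2 : ℝ) ^ (F.m (2 * c - d) i) := by
  have h1 := (hG i ω hω).pos k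
  set n := F.n i with hn
  set A := F.N c i ω with hA
  set B := F.N d i ω with hB
  have e1 : (2:ℝ) ^ (c * n) * (A.o k : ℝ) = 2 ^ (2 * (c * n)) * xx F c i ω k := by
    show _ = 2 ^ (2 * (c * n)) * ((A.o k : ℝ) / 2 ^ (c * n))
    have : (2:ℝ) ^ (2 * (c * n)) = 2 ^ (c * n) * 2 ^ (c * n) := by rw [← pow_add]; congr 1; ring
    rw [this]
    field_simp
  have e2 : (2:ℝ) ^ (d * n) * (B.o k : ℝ) = 2 ^ (2 * (d * n)) * xx F d i ω k := by
    show _ = 2 ^ (2 * (d * n)) * ((B.o k : ℝ) / 2 ^ (d * n))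
    have : (2:ℝ) ^ (2 * (d * n)) = 2 ^ (d * n) * 2 ^ (d * n) := by rw [← pow_add]; congr 1; ring
    rw [this]
    field_simp
  have e3 : (2:ℝ) ^ (2 * (d * n)) = 2 ^ (2 * (c * n)) * 2 ^ (ds F c d i) := by
    rw [← pow_add]
    congr 1
    show 2 * (d * n) = 2 * (c * n) + 2 * ((d - c) * n)
    rw [← mul_add, ← add_mul]
    congr 2
    omega
  have e4 : (A.T : ℝ) = 2 ^ (ds F c d i) * (B.T : ℝ) + ((A.T % 2 ^ (ds F c d i) : ℤ) : ℝ) := by
    have := T_eq hG hω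
    have h2 : ((F.T c i ω : ℤ) : ℝ) = ((2 ^ (ds F c d i) * F.T d i ω + F.T c i ω % 2 ^ (ds F c d i) : ℤ) : ℝ) :=
      congrArg _ this
    rw [Int.cast_add, Int.cast_mul, Int.cast_pow, Int.cast_ofNat] at h2
    exact h2
  have e5 : ((A.T % 2 ^ (ds F c d i) : ℤ) : ℝ) = 2 ^ (ds F c d i) * tm F c d i ω := by
    show _ = 2 ^ (ds F c d i) * (((A.T % 2 ^ (ds F c d i) : ℤ) : ℝ) / 2 ^ (ds F c d i))
    rw [mul_div_cancel₀ _ (by positivity)]
  rw [e1, e2, e3, e4, e5] at h1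
  have e6 : (2:ℝ) ^ (2 * (c * n)) * xx F c i ω k - (2 ^ (2 * (c * n)) * 2 ^ (ds F c d i) * xx F d i ω k +
      (2 ^ (2 * (c * n)) * (2 ^ (ds F c d i) * (B.T : ℝ) + 2 ^ (ds F c d i) * tm F c d i ω) -
        2 ^ (2 * (c * n)) * 2 ^ (ds F c d i) * (B.T : ℝ)) * F.s i d B.τ k) =
      2 ^ (2 * (c * n)) * (xx F c i ω k -
        2 ^ (ds F c d i) * (xx F d i ω k + tm F c d i ω * F.s i d B.τ k)) := by ring
  rw [e6, abs_mul, abs_of_pos (by positivity : (0:ℝ) < 2 ^ (2 * (c * n)))] at h1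
  have e7 : C' * (2:ℝ) ^ (d * n) = 2 ^ (2 * (c * n)) * (C' * (1 / 2 : ℝ) ^ (F.m (2 * c - d) i)) := by
    have f1 : (2:ℝ) ^ (2 * (c * n)) = 2 ^ (d * n) * 2 ^ (F.m (2 * c - d) i) := by
      rw [← pow_add]
      congr 1
      show 2 * (c * n) = d * n + (2 * c - d) * n
      rw [← add_mul, ← mul_assoc]
      congr 1
      omega
    rw [f1, one_div, inv_pow]
    field_simp
  rw [e7] at h1
  exact le_of_mul_le_mul_left h1 (by positivity)

theorem slope_le (hG : HG F C' c d) (hcK : c ≤ K) {i : ℕ} {ω : F.S.Ω i} (hω : 0 < (F.S.P i).w ω)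
    (k : Fin 2) : |F.s i c (F.N c i ω).τ k| ≤ 1 :=
  (F.slp i).bd c _ k hcK (hG i ω hω).capA

theorem slope_le' (hG : HG F C' c d) (hdK : d ≤ K) {i : ℕ} {ω : F.S.Ω i} (hω : 0 < (F.S.P i).w ω)
    (k : Fin 2) : |F.s i d (F.N d i ω).τ k| ≤ 1 :=
  (F.slp i).bd d _ k hdK (hG i ω hω).capB

theorem ln_ok (hG : HG F C' c d) (hcK : c ≤ K) : LnA (F.ln c) := by
  refine Eventually.of_forall fun i ω hω => ⟨fun k => ?_, fun k => slope_le hG hcK hω k⟩
  show |Int.fract _| ≤ 1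
  rw [abs_of_nonneg (Int.fract_nonneg _)]
  exact (Int.fract_lt_one _).le

theorem ln_ok' (hG : HG F C' c d) (hdK : d ≤ K) : LnA (F.ln d) := by
  refine Eventually.of_forall fun i ω hω => ⟨fun k => ?_, fun k => slope_le' hG hdK hω k⟩
  show |Int.fract _| ≤ 1
  rw [abs_of_nonneg (Int.fract_nonneg _)]
  exact (Int.fract_lt_one _).le

/-- slopes of the levels `c`, `d` agree at the precision of the piece -/
theorem geo2 (hG : HG F C' c d) (hC : 0 ≤ C') (hcd : c ≤ d) {i : ℕ} {ω : F.S.Ω i}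
    (hω : 0 < (F.S.P i).w ω) (k : Fin 2) :
    |F.s i d (F.N d i ω).τ k - F.s i c (F.N c i ω).τ k| ≤ C' * (1 / 2 : ℝ) ^ (F.m (2 * c - d) i) := by
  have h1 := (hG i ω hω).sl k
  rw [abs_sub_comm] at h1
  refine h1.trans ?_
  have h2 : (1 / 2 : ℝ) ^ (c * F.n i) ≤ (1 / 2 : ℝ) ^ (F.m (2 * c - d) i) :=
    hp_anti (Nat.mul_le_mul_right _ (by omega))
  have h3 : C' / 2 ^ (c * F.n i) = C' * (1 / 2 : ℝ) ^ (c * F.n i) := by
    rw [one_div, inv_pow]
    rfl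
  rw [h3]
  exact mul_le_mul_of_nonneg_left h2 hC

/-- **(P1)** the line of the piece is the line of level `c` -/
theorem clo_bl (hG : HG F C' c d) (hC : 0 ≤ C') (hcd : c ≤ d) (hd : d ≤ 2 * c) :
    Clo (F.m (2 * c - d)) (F.ln c) (bl (ds F c d) (F.ln d) (tm F c d)) := by
  refine ⟨⌈C'⌉₊, fun i ω k => ⌊xx F c i ω k⌋ - 2 ^ (ds F c d i) * ⌊xx F d i ω k⌋ -
    ⌊(2:ℝ) ^ (ds F c d i) * pos (F.ln d i ω) (qa (ds F c d i) (tm F c d i ω)) k⌋, ?_⟩
  refine Eventually.of_forall fun i ω hω k => ?_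
  have hCc : C' * (1 / 2 : ℝ) ^ (F.m (2 * c - d) i) ≤ (⌈C'⌉₊ : ℝ) * (1 / 2 : ℝ) ^ (F.m (2 * c - d) i) :=
    mul_le_mul_of_nonneg_right (Nat.le_ceil _) (hp_pos _).le
  constructor
  · refine le_trans ?_ ((geo1 hG hcd hd hω k).trans hCc)
    apply le_of_eq
    rw [← abs_neg]
    congr 1
    show -(Int.fract ((2:ℝ) ^ (ds F c d i) * pos (F.ln d i ω) (qa (ds F c d i) (tm F c d i ω)) k) -
      Int.fract (xx F c i ω k) - _) = _
    simp only [qa_tm]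
    unfold Int.fract
    have e1 : pos (F.ln d i ω) (tm F c d i ω) k = (xx F d i ω k - ⌊xx F d i ω k⌋) +
      tm F c d i ω * F.s i d (F.N d i ω).τ k := rfl
    rw [e1]
    push_cast
    ring
  · exact (geo2 hG hC hcd hω k).trans hCc

end norm

/-! ### the geometry holds -/

section chain

variable {K : ℕ} (F : Flg K)

theorem cap_of {i : ℕ} {ω : F.S.Ω i} (hω : 0 < (F.S.P i).w ω) :
    ∀ c, c ≤ K → Cap (F.n i) c (F.N c i ω).τ := by
  intro c
  induction c with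
  | zero =>
    intro _ k
    rw [(F.root i ω hω).1]
    simp
  | succ c ih =>
    intro hc k
    have h1 := ih (by omega) k
    have h2 := (F.step i ω hω c (by omega)).1
    unfold kids at h2
    rw [Fintype.mem_piFinset] at h2
    have h3 := Finset.mem_Ico.mp (h2 k)
    have hp : (0:ℤ) < 2 ^ F.n i := by positivity
    constructor
    · exact (mul_nonneg hp.le h1.1).trans h3.1
    · have h4 : (F.N c i ω).τ k + 1 ≤ 2 ^ (c * F.n i) := h1.2
      have h5 : (2:ℤ) ^ ((c + 1) * F.n i) = 2 ^ F.n i * 2 ^ (c * F.n i) := by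
        rw [← pow_add]
        congr 1
        ring
      rw [h5]
      exact lt_of_lt_of_le h3.2 (mul_le_mul_of_nonneg_left h4 hp.le)

theorem chn_of {i : ℕ} {ω : F.S.Ω i} (hω : 0 < (F.S.P i).w ω) :
    H474.Chn (F.s i) (F.n i) K (fun c => F.N c i ω) where
  cap := cap_of F hω
  step := fun c hc => (F.step i ω hω c hc).2
  kid := fun c hc => (F.step i ω hω c hc).1

theorem C_nonneg (F : Flg K) : 0 ≤ F.C := H474.Chn.C_nonneg (F.slp 0)

theorem hg_of {c d : ℕ} (hcd : c ≤ d) (hd : d ≤ K) : HG F ((F.C + 2) * K) c d := by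
  intro i ω hω
  have h := chn_of F hω
  have hC := C_nonneg F
  have hcK : (c:ℝ) ≤ K := by exact_mod_cast hcd.trans hd
  have hdK : (d:ℝ) ≤ K := by exact_mod_cast hd
  have hcd' : (c:ℝ) ≤ d := by exact_mod_cast hcd
  have hc0 : (0:ℝ) ≤ c := Nat.cast_nonneg _
  refine ⟨fun k => h.tau_eq hcd hd k, ?_, h.cap c (hcd.trans hd), h.cap d hd, fun k => ?_, fun k => ?_⟩
  · have := h.T_eq hcd hd
    rw [mul_assoc] at this
    exact this
  · refine (h.slope (F.slp i) hcd hd k).trans ?_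
    apply div_le_div_of_nonneg_right _ (by positivity)
    nlinarith
  · have h1 := h.posn (F.slp i) hcd hd k
    have e1 : H474.ps (F.n i) c (F.N c i ω) k - (H474.ps (F.n i) d (F.N d i ω) k +
        (H474.tm (F.n i) c (F.N c i ω) - H474.tm (F.n i) d (F.N d i ω)) * F.s i d (F.N d i ω).τ k) =
        2 ^ (c * F.n i) * ((F.N c i ω).o k : ℝ) - (2 ^ (d * F.n i) * ((F.N d i ω).o k : ℝ) +
        (2 ^ (2 * (c * F.n i)) * ((F.N c i ω).T : ℝ) - 2 ^ (2 * (d * F.n i)) * ((F.N d i ω).T : ℝ)) *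
          F.s i d (F.N d i ω).τ k) := by
      unfold H474.ps H474.tm
      rw [mul_assoc 2 c, mul_assoc 2 d]
    rw [← e1]
    refine h1.trans ?_
    apply mul_le_mul_of_nonneg_right _ (by positivity)
    nlinarith

end chain

/-! ### tameness -/

section tame

variable {K : ℕ} (F : Flg K)

theorem T_bd {i : ℕ} {ω : F.S.Ω i} (hω : 0 < (F.S.P i).w ω) {c : ℕ} (hc : c ≤ K) :
    0 ≤ (F.N c i ω).T ∧ (F.N c i ω).T < 2 ^ (2 * K * F.n i) := by
  have h1 := (chn_of F hω).T_eq (Nat.zero_le c) hc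
  have h2 := (F.root i ω hω).2
  have h1' : (F.N c i ω).T = (F.N 0 i ω).T / 2 ^ (2 * (c - 0) * F.n i) := h1
  rw [h1']
  have hp : (0:ℤ) < 2 ^ (2 * (c - 0) * F.n i) := by positivity
  refine ⟨Int.ediv_nonneg h2.1 hp.le, lt_of_le_of_lt ?_ h2.2⟩
  exact Int.ediv_le_self _ h2.1

theorem o_bd {i : ℕ} {ω : F.S.Ω i} (hω : 0 < (F.S.P i).w ω) {c : ℕ} (hc : c ≤ K) (k : Fin 2) :
    |((F.N c i ω).o k : ℝ)| ≤ (F.C + 1 + (F.C + 2) * K) * 2 ^ (2 * K * F.n i) := by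
  have hC := C_nonneg F
  have h := chn_of F hω
  have h1 := (hg_of F hc le_rfl i ω hω).pos k
  have h2 := F.top i ω hω k
  have h3 : |F.s i K (F.N K i ω).τ k| ≤ 1 := (F.slp i).bd K _ k le_rfl (h.cap K le_rfl)
  have h4 := h.tm_sub_nonneg hc le_rfl
  have h5 := h.tm_sub_le hc le_rfl
  have e1 : (2:ℝ) ^ (2 * (c * F.n i)) * ((F.N c i ω).T : ℝ) - 2 ^ (2 * (K * F.n i)) * ((F.N K i ω).T : ℝ) =
      H474.tm (F.n i) c (F.N c i ω) - H474.tm (F.n i) K (F.N K i ω) := by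
    unfold H474.tm
    rw [mul_assoc 2 c, mul_assoc 2 K]
  rw [e1] at h1
  set D := H474.tm (F.n i) c (F.N c i ω) - H474.tm (F.n i) K (F.N K i ω) with hD
  have h4' : 0 ≤ D := h4
  have h5' : D ≤ 2 ^ (2 * K * F.n i) := by
    have : (0:ℝ) < 2 ^ (2 * c * F.n i) := by positivity
    have h5'' : H474.tm (F.n i) c (F.N c i ω) + 2 ^ (2 * c * F.n i) ≤
      H474.tm (F.n i) K (F.N K i ω) + 2 ^ (2 * K * F.n i) := h5
    linarith
  have hpK : (0:ℝ) < 2 ^ (K * F.n i) := by positivity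
  have hpK1 : (1:ℝ) ≤ 2 ^ (K * F.n i) := one_le_pow₀ (by norm_num)
  have e2 : (2:ℝ) ^ (2 * K * F.n i) = 2 ^ (K * F.n i) * 2 ^ (K * F.n i) := by
    rw [← pow_add]
    congr 1
    ring
  have h6 : |D * F.s i K (F.N K i ω).τ k| ≤ 2 ^ (2 * K * F.n i) := by
    rw [abs_mul, abs_of_nonneg h4']
    calc D * |F.s i K (F.N K i ω).τ k| ≤ 2 ^ (2 * K * F.n i) * 1 :=
          mul_le_mul h5' h3 (abs_nonneg _) (by positivity)
      _ = _ := mul_one _
  have h7 : |(2:ℝ) ^ (K * F.n i) * ((F.N K i ω).o k : ℝ)| ≤ F.C * 2 ^ (2 * K * F.n i) := by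
    rw [abs_mul, abs_of_pos hpK, e2]
    nlinarith
  have hpc1 : (1:ℝ) ≤ 2 ^ (c * F.n i) := one_le_pow₀ (by norm_num)
  have h8 : |((F.N c i ω).o k : ℝ)| ≤ |(2:ℝ) ^ (c * F.n i) * ((F.N c i ω).o k : ℝ)| := by
    rw [abs_mul, abs_of_pos (by positivity : (0:ℝ) < 2 ^ (c * F.n i))]
    nlinarith [abs_nonneg ((F.N c i ω).o k : ℝ)]
  have hCK : 0 ≤ (F.C + 2) * K := by positivity
  have h9 : (F.C + 2) * K * (2:ℝ) ^ (K * F.n i) ≤ (F.C + 2) * K * 2 ^ (2 * K * F.n i) := by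
    apply mul_le_mul_of_nonneg_left _ hCK
    rw [e2]
    nlinarith
  have h10 : |(2:ℝ) ^ (c * F.n i) * ((F.N c i ω).o k : ℝ)| ≤
      |(2:ℝ) ^ (c * F.n i) * ((F.N c i ω).o k : ℝ) - (2 ^ (K * F.n i) * ((F.N K i ω).o k : ℝ) +
        D * F.s i K (F.N K i ω).τ k)| + |(2:ℝ) ^ (K * F.n i) * ((F.N K i ω).o k : ℝ)| +
        |D * F.s i K (F.N K i ω).τ k| := by
    have e3 : (2:ℝ) ^ (c * F.n i) * ((F.N c i ω).o k : ℝ) =
      ((2:ℝ) ^ (c * F.n i) * ((F.N c i ω).o k : ℝ) - (2 ^ (K * F.n i) * ((F.N K i ω).o k : ℝ) +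
        D * F.s i K (F.N K i ω).τ k)) + (2:ℝ) ^ (K * F.n i) * ((F.N K i ω).o k : ℝ) +
        D * F.s i K (F.N K i ω).τ k := by ring
    conv_lhs => rw [e3]
    exact abs_add_three _ _ _
  nlinarith

theorem bd_2K (hK : 1 ≤ K) : F.S.Bd (fun i => 2 * K * F.n i) := bd_mul F hK (2 * K)

theorem tame_T (hK : 1 ≤ K) {c : ℕ} (hc : c ≤ K) : Tame (F.T c) := by
  refine tame_int (bd_2K F hK) 1 _ (Eventually.of_forall fun i ω hω => ?_)
  have h := T_bd F hω hc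
  have h1 : (0:ℝ) ≤ ((F.N c i ω).T : ℝ) := by exact_mod_cast h.1
  have h2 : ((F.N c i ω).T : ℝ) ≤ 2 ^ (2 * K * F.n i) := by exact_mod_cast h.2.le
  show |((F.N c i ω).T : ℝ)| ≤ _
  rw [abs_of_nonneg h1]
  push_cast
  linarith

theorem tame_o (hK : 1 ≤ K) {c : ℕ} (hc : c ≤ K) (k : Fin 2) :
    Tame (S := F.S) (fun i ω => (F.N c i ω).o k) := by
  refine tame_int (bd_2K F hK) ⌈F.C + 1 + (F.C + 2) * K⌉₊ _ (Eventually.of_forall fun i ω hω => ?_)
  refine (o_bd F hω hc k).trans ?_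
  exact mul_le_mul_of_nonneg_right (Nat.le_ceil _) (by positivity)

theorem tame_τ (hK : 1 ≤ K) {c : ℕ} (hc : c ≤ K) (k : Fin 2) :
    Tame (S := F.S) (fun i ω => (F.N c i ω).τ k) := by
  refine tame_int (bd_m F hK c) 1 _ (Eventually.of_forall fun i ω hω => ?_)
  have h := cap_of F hω c hc k
  have h1 : (0:ℝ) ≤ ((F.N c i ω).τ k : ℝ) := by exact_mod_cast h.1
  have h2 : ((F.N c i ω).τ k : ℝ) ≤ 2 ^ (c * F.n i) := by exact_mod_cast h.2.le
  show |((F.N c i ω).τ k : ℝ)| ≤ ((1:ℕ):ℝ) * 2 ^ (c * F.n i)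
  rw [abs_of_nonneg h1, Nat.cast_one, one_mul]
  exact h2

/-- nodes are tame -/
theorem tame_N (hK : 1 ≤ K) {c : ℕ} (hc : c ≤ K) : Tame (F.N c) := by
  have h1 := ((tame_τ F hK hc 0).pr (tame_τ F hK hc 1)).pr
    (((tame_o F hK hc 0).pr (tame_o F hK hc 1)).pr (tame_T F hK hc))
  refine h1.mono (Eventually.of_forall fun i ω ω' _ _ e => ?_)
  simp only [pr_apply, Prod.mk.injEq] at e
  obtain ⟨⟨e1, e2⟩, ⟨e3, e4⟩, e5⟩ := e
  refine Nd.ext ?_ ?_ e5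
  · funext k
    fin_cases k
    · exact e1
    · exact e2
  · funext k
    fin_cases k
    · exact e3
    · exact e4

theorem fn_sig (c d : ℕ) : Sys.Fn (F.sig c d) (F.N c) :=
  Eventually.of_forall fun i ω ω' _ _ e => by
    show (⟨_, _, _⟩ : Nd) = ⟨_, _, _⟩
    have e' : F.N c i ω = F.N c i ω' := e
    rw [e']

theorem fn_ball (c : ℕ) : Sys.Fn (F.ball c) (F.N c) :=
  Eventually.of_forall fun i ω ω' _ _ e => by
    have e' : F.N c i ω = F.N c i ω' := e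
    show (_, _) = (_, _)
    rw [e']

theorem fn_T (c : ℕ) : Sys.Fn (F.T c) (F.N c) :=
  Eventually.of_forall fun _ _ _ _ _ e => congrArg Nd.T e

theorem fn_T_sig (c d : ℕ) : Sys.Fn (F.T c) (F.sig c d) :=
  Eventually.of_forall fun i ω ω' _ _ e => by
    have h : (F.sig c d i ω).T = (F.sig c d i ω').T := congrArg Nd.T e
    exact h

theorem fn_T_ball (c : ℕ) : Sys.Fn (F.T c) (F.ball c) :=
  Eventually.of_forall fun _ _ _ _ _ e => congrArg Prod.fst e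

theorem tame_sig (hK : 1 ≤ K) {c : ℕ} (hc : c ≤ K) (d : ℕ) : Tame (F.sig c d) :=
  (tame_N F hK hc).mono (fn_sig F c d)

theorem tame_ball (hK : 1 ≤ K) {c : ℕ} (hc : c ≤ K) : Tame (F.ball c) :=
  (tame_N F hK hc).mono (fn_ball F c)

end tame

end Vale.Agent.P122.K931
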