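import Vale.Agent.P122.K931.Rel
import Vale.Agent.P127.U.Coarse

/-!
# P122 / K931 : the Kakeya step `E4` for systems of flags (helper931)

`e4 : (∀ β > 0, JF 2 β) → E4`.
-/

set_option autoImplicit false

namespace Vale.Agent.P122.K931

open Filter Topology Finset Vale.Agent.P127 Vale.Agent.P127.Stk Vale.Agent.P127.U Vale.Agent.P127.U.Sys
open Vale.Agent.P127.U.Fi Vale.Agent.P122.C2 Vale.Agent.P122.E

section

variable {K : ℕ} (F : Flg K) {c d : ℕ}

/-- **the inequality of P127 for the levels `c ≤ d` of a system of flags** -/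
theorem kak (hJ : ∀ β : ℝ, 0 < β → JF 2 β) (hcd : c ≤ d) (hd : d ≤ 2 * c) (hdK : d ≤ K) :
    F.S.exc (tubes (F.m (2 * c - d)) (F.ln c)) (F.ball c) + F.S.hc (F.N d) (F.sig c d) ≤
      F.exc d + 2 * F.D c d := by
  have hK := K_pos F
  have hcK : c ≤ K := hcd.trans hdK
  have hP := par_ds F hK hcd hd
  have hl : LnA (F.ln d) := ln_ok' (hg_of F hcd hdK) hdK
  have hlc : LnA (F.ln c) := ln_ok (hg_of F hcd hdK) hcK
  have ht := tm_t01 F c d
  have tN : Tame (F.N d) := tame_N F hK hdK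
  have tb : Tame (F.ball d) := tame_ball F hK hdK
  have tbc : Tame (F.ball c) := tame_ball F hK hcK
  have tsig : Tame (F.sig c d) := tame_sig F hK hcK d
  have ttl : Tame (tl (ds F c d) (F.m d) (F.ln d) (tm F c d)) := tame_tl hP hl ht
  have tpq : Tame (pqs (ds F c d) (pt (F.ln d) (tm F c d))) := Fi.tame_pqs hP.bds hl ht
  have tds : Tame (dg (ds F c d) (tm F c d)) := t01_tame ht hP.bds
  have ttb : Tame (tbs (F.m d) (F.ln d)) := Fi.tame_tbs hP.bd hl
  have tT : Tame (F.T c) := tame_T F hK hcK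
  have k := k0 hJ (F.ball d) hP hl ht
  -- the excess of the piece
  have e1 : F.S.exc (tubes (F.m (2 * c - d)) (F.ln c)) (F.ball c) =
      F.S.exc (tubes (F.m (2 * c - d)) (bl (ds F c d) (F.ln d) (tm F c d)))
        (Sys.pr (pqs (ds F c d) (pt (F.ln d) (tm F c d))) (F.ball d)) := by
    refine exc_clo (bd_m F hK _) hlc (bl_ok hl) (clo_bl (hg_of F hcd hdK) (hCC F) hcd hd) tbc
      (tpq.pr tb) (z_ball F hK hcd hd hdK) ?_
    exact hc_zero_pair tpq tb (z_pq F hK hcd hd hdK) (z_ball_down F hK hcd hd hdK)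
  -- the tube given the piece
  have e2 : F.S.hc (tbs (F.m d) (F.ln d)) (Sys.pr (tl (ds F c d) (F.m d) (F.ln d) (tm F c d)) (F.ball d)) =
      F.S.hc (F.N d) (F.sig c d) := by
    have a1 : F.S.hc (tbs (F.m d) (F.ln d))
        (Sys.pr (tl (ds F c d) (F.m d) (F.ln d) (tm F c d)) (F.ball d)) =
        F.S.hc (F.N d) (Sys.pr (tl (ds F c d) (F.m d) (F.ln d) (tm F c d)) (F.ball d)) := by
      refine hc_eq_of_zero ttb tN ?_ ?_
      · refine hc_zero_mono ttb (hc_zero_left ttb (ttb.pr tb) (z_node' F hK hdK)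
          (Eventually.of_forall fun _ _ _ _ _ e => congrArg Prod.fst e))
          (Eventually.of_forall fun _ _ _ _ _ e => congrArg Prod.fst e)
      · refine hc_zero_mono tN (z_node F hdK (F.ball d)) (Eventually.of_forall fun _ _ _ _ _ e => ?_)
        simp only [pr_apply, Prod.mk.injEq] at e ⊢
        exact ⟨⟨e.1, e.2.2⟩, e.2.2⟩
    rw [a1]
    refine hc_cond_zero' (Y := F.ball d) tN (ttl.pr tb) tsig (z_tl' F hcd hd hdK) ?_
    refine hc_zero_mono tsig (z_tl F hcd hd hdK (F.ball d)) (Eventually.of_forall fun _ _ _ _ _ e => ?_)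
    simp only [pr_apply, Prod.mk.injEq] at e ⊢
    exact ⟨e, e.2⟩
  -- the time given the tube
  have e3 : F.S.hc (dg (ds F c d) (tm F c d)) (Sys.pr (tbs (F.m d) (F.ln d)) (F.ball d)) =
      F.S.hc (F.T c) (F.N d) := by
    have a1 : F.S.hc (dg (ds F c d) (tm F c d)) (Sys.pr (tbs (F.m d) (F.ln d)) (F.ball d)) =
        F.S.hc (F.T c) (Sys.pr (tbs (F.m d) (F.ln d)) (F.ball d)) := by
      refine hc_eq_of_zero tds tT ?_ ?_
      · refine hc_fn ?_
        filter_upwards [fn_tm_T F (c := c) (d := d)] with i hi ω ω' hω hω' e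
        exact hi ω ω' hω hω' (congrArg Prod.fst e)
      · refine hc_fn ?_
        filter_upwards [fn_T_tm F hcd hdK] with i hi ω ω' hω hω' e
        refine hi ω ω' hω hω' ?_
        simp only [pr_apply, Prod.mk.injEq] at e ⊢
        exact ⟨e.1, congrArg Prod.fst e.2.2⟩
    rw [a1]
    refine hc_cond_zero' (Y := F.ball d) tT (ttb.pr tb) tN (z_node' F hK hdK) ?_
    refine hc_zero_mono tN (z_node F hdK (F.ball d)) (Eventually.of_forall fun _ _ _ _ _ e => ?_)
    simp only [pr_apply, Prod.mk.injEq] at e ⊢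
    exact ⟨e, e.2⟩
  rw [← e1, e2, e3, nu_ds F hK hcd] at k
  exact k

/-- the entropy of the piece given the tube -/
theorem sig_node (hcd : c ≤ d) (hd : d ≤ 2 * c) (hdK : d ≤ K) :
    F.S.hc (F.sig c d) (F.N d) = F.S.hc (F.T c) (F.N d) := by
  have hK := K_pos F
  have hcK : c ≤ K := hcd.trans hdK
  exact hc_eq_of_zero (tame_sig F hK hcK d) (tame_T F hK hcK) (z_sig_T F hcd hd hdK)
    (hc_fn ((fn_T_sig F c d).mono fun i hi ω ω' hω hω' e => hi ω ω' hω hω' (congrArg Prod.fst e)))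

end

/-- **E4** -/
theorem e4 (hJ : ∀ β : ℝ, 0 < β → JF 2 β) : E4 := by
  intro K F c d hK hc hcd hd hdK S' ex W' hW'
  have hcK : c ≤ K := hcd.trans hdK
  have hlc : LnA (F.ln c) := ln_ok (hg_of F hcd hdK) hcK
  have hB : BxA (tubes (F.m (2 * c - d)) (F.ln c)) := tubes_bxA (bd_m F hK _) hlc
  have hB' : BxA (tubes (F.m (2 * c - d)) (ex.pull (F.ln c))) := ex.bxA hB
  have hWA : BxA W' := bxA_of_sub hB' hW'
  have k1 := kak F hJ hcd hd hdK
  have k2 := pExcLe F.S S' ex _ (F.ball c) (tubes (F.m (2 * c - d)) (F.ln c)) W' hB hWA hW'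
  -- the value of the box
  have tN : Tame (F.N d) := tame_N F hK hdK
  have tbc : Tame (F.ball c) := tame_ball F hK hcK
  have tsig : Tame (F.sig c d) := tame_sig F hK hcK d
  have ttb : Tame (tbs (F.m (2 * c - d)) (F.ln c)) := Fi.tame_tbs (bd_m F hK _) hlc
  have k3 : S'.val (ex.pullB (tubes (F.m (2 * c - d)) (F.ln c))) W' (ex.pull (F.ball c)) =
      S'.hc (ex.pull (F.sig c d)) (Sys.pr W'.lab (ex.pull (F.ball c))) -
        (2 * ((2 * (c:ℝ) - d) / K) - S'.av W'.sz) := by
    have a1 : S'.av (fun i ω => ((tubes (F.m (2 * c - d)) (ex.pull (F.ln c))) i).sz ω - (W' i).sz ω) =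
        2 * ((2 * (c:ℝ) - d) / K) - S'.av W'.sz := by
      have c2 := av_sub (ol_sz hB') (ol_sz hWA)
      have c3 : S'.av (BX.sz (tubes (F.m (2 * c - d)) (ex.pull (F.ln c)))) =
          2 * ((2 * (c:ℝ) - d) / K) := by
        have b1 : BX.sz (tubes (F.m (2 * c - d)) (ex.pull (F.ln c))) =
            fun i _ => 2 * (F.m (2 * c - d) i : ℝ) := by
          funext i ω
          show (F.m (2 * c - d) i : ℝ) + F.m (2 * c - d) i = _
          ring
        have b2 := nu_m F hK (2 * c - d)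
        have b3 : ((2 * c - d : ℕ) : ℝ) = 2 * c - d := by
          rw [Nat.cast_sub hd]
          push_cast
          ring
        rw [b3] at b2
        rw [b1, av_const, ← b2]
        unfold nu
        rw [← ulim_const_mul 2 (Bd.ub (bd_m F hK _))]
        refine ulim_congr (Eventually.of_forall fun i => ?_)
        rw [ex.L_eq]
        ring
      rw [← c3]
      exact c2
    have a2 : S'.hc (BX.lab (tubes (F.m (2 * c - d)) (ex.pull (F.ln c))))
        (Sys.pr W'.lab (ex.pull (F.ball c))) =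
        S'.hc (ex.pull (F.sig c d)) (Sys.pr W'.lab (ex.pull (F.ball c))) := by
      have z1 : F.S.hc (F.sig c d) (Sys.pr (Sys.pr (tbs (F.m (2 * c - d)) (F.ln c)) (F.ball c))
        (F.ball c)) = 0 := z_sig F hcd hd hcK (F.ball c)
      have z2 : F.S.hc (BX.lab (tubes (F.m (2 * c - d)) (F.ln c))) (F.sig c d) = 0 := by
        have b1 := z_sig' F hK hcd hd hcK
        have b2 : F.S.hc (tbs (F.m (2 * c - d)) (F.ln c)) (F.sig c d) = 0 :=
          hc_zero_left ttb (ttb.pr tbc) b1 (Eventually.of_forall fun _ _ _ _ _ e => congrArg Prod.fst e)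
        exact hc_zero_left hB.tame ttb b2 (Coa.fn_lab _ _)
      refine hc_eq_of_zero hB'.tame (ex.tame tsig) ?_ ?_
      · have b1 : S'.hc (ex.pull (BX.lab (tubes (F.m (2 * c - d)) (F.ln c)))) (ex.pull (F.sig c d)) = 0 :=
          (ex.hc _ _).trans z2
        exact zero_more hB'.tame b1
      · have b1 : S'.hc (ex.pull (F.sig c d)) (ex.pull (Sys.pr (Sys.pr
            (tbs (F.m (2 * c - d)) (F.ln c)) (F.ball c)) (F.ball c))) = 0 := (ex.hc _ _).trans z1
        refine hc_zero_mono (ex.tame tsig) b1 ?_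
        have b2 := ex.fn (Coa.fn_lab' (F.m (2 * c - d)) (F.ln c))
        filter_upwards [b2] with i hi ω ω' hω hω' e
        simp only [pr_apply, Prod.mk.injEq] at e
        have b3 := hi ω ω' hω hω' e.1
        have b4 : F.ball c i (ex.π i ω) = F.ball c i (ex.π i ω') := e.2.2
        have b3' : tbs (F.m (2 * c - d)) (F.ln c) i (ex.π i ω) =
          tbs (F.m (2 * c - d)) (F.ln c) i (ex.π i ω') := b3
        exact Prod.ext (Prod.ext b3' b4) b4
    rw [← a1, ← a2]
    rfl
  have k4 := sig_node F hcd hd hdK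
  have k5 := h_swap tN tsig
  have k6 : F.S.h (F.N d) = F.S.hc (F.N d) (one (S := F.S)) := rfl
  have k7 : F.S.h (F.sig c d) = F.S.hc (F.sig c d) (one (S := F.S)) := rfl
  have k8 : F.D c d = 2 * ((d : ℝ) - c) / K - F.S.hc (F.T c) (F.N d) := rfl
  rw [k3] at k2
  rw [k6, k7, k4] at k5
  rw [k8] at k1 ⊢
  have hK' : (K:ℝ) ≠ 0 := by
    have : (0:ℝ) < K := by exact_mod_cast hK
    exact this.ne'
  have e1 : 4 * (d:ℝ) / K = 6 * c / K - 2 * ((2 * (c:ℝ) - d) / K) + 2 * ((d:ℝ) - c) / K := by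
    field_simp
    ring
  linarith

end Vale.Agent.P122.K931
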