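import Vale.Agent.P127.U.Fill
import Vale.Agent.P127.U.ExcC
import Vale.Agent.P127.U.JS

/-!
# P122 / K931 : the Kakeya step at all levels (helper931)

From the inequality of P127 (`JF 2 β` for all `β > 0`) : for tubes of precision `n`, seen in the balls
of radius `2^-s` around the points of time `t`, with any side information `C`,
`Exc(tubelet | ball, C) + h(tube | tubelet, C) ≤ Exc(tube | C) + 2 (s - h(ball | tube, C))`.
-/

set_option autoImplicit false

namespace Vale.Agent.P122.K931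

open Filter Topology Vale.Agent.P127 Vale.Agent.P127.Stk Vale.Agent.P127.U Vale.Agent.P127.U.Sys
open Vale.Agent.P127.U.Fi

section rel

variable {S : Sys} {α γ : Type*} {n s m : ℕ → ℕ} {l : S.RV Ln} {t t' : S.RV ℝ}

/-- zero conditional entropy with more side information -/
theorem zero_more {X : S.RV α} {Y : S.RV γ} {δ : Type*} {Z : S.RV δ} (hX : Tame X)
    (h : S.hc X Y = 0) : S.hc X (Sys.pr Y Z) = 0 :=
  hc_zero_mono hX h (Eventually.of_forall fun _ _ _ _ _ e => congrArg Prod.fst e)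

theorem tame_tl (h : Par S n s m) (hl : LnA l) (ht : T01 t) : Tame (tl s n l t) := by
  have h1 : Tame (Sys.pr (dg s t) (Sys.pr (dgv n (ps s l t)) (dgv m (dir l)))) :=
    (t01_tame ht h.bds).pr ((tame_ps h.bd hl ht).pr (tame_dirv h.bdm hl))
  refine h1.mono (Eventually.of_forall fun i ω ω' _ _ e => ?_)
  simp only [pr_apply, Prod.mk.injEq] at e
  have hm : n i - s i = m i := by have := h.add i; omega
  show (_, _, _) = (_, _, _)
  rw [hm]
  exact Prod.ext e.1 (Prod.ext e.2.1 e.2.2)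

/-- the parts of the tubelet -/
theorem fn_tl_time : Fn (dg s t) (tl s n l t) :=
  Eventually.of_forall fun _ _ _ _ _ e => congrArg Prod.fst e

theorem fn_tl_lab (h : Par S n s m) : Fn (BX.lab (tubes m (bl s l t))) (tl s n l t) := by
  filter_upwards [fn_tubelet (l := l) (t := t) h] with i hi ω ω' hω hω' e
  refine hi ω ω' hω hω' ?_
  have hm : n i - s i = m i := by have := h.add i; omega
  have e1 : fl (n i) (pos (l i ω) (qa (s i) (t i ω))) = fl (n i) (pos (l i ω') (qa (s i) (t i ω'))) :=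
    congrArg (fun q => q.2.1) e
  have e2 : fl (n i - s i) (l i ω).2 = fl (n i - s i) (l i ω').2 := congrArg (fun q => q.2.2) e
  rw [hm] at e2
  exact Prod.ext e1 e2

/-- the tubelet is a function of the tube and of the coarse time -/
theorem zero_tl_tb (h : Par S n s m) (hl : LnA l) (ht : T01 t) :
    S.hc (tl s n l t) (Sys.pr (dg s t) (tbs n l)) = 0 := by
  have h1 : S.hc (Sys.pr (dg s t) (Sys.pr (dgv n (ps s l t)) (dgv m (dir l))))
      (Sys.pr (dg s t) (tbs n l)) = 0 := by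
    refine hc_zero_pair (t01_tame ht h.bds) ((tame_ps h.bd hl ht).pr (tame_dirv h.bdm hl)) ?_ ?_
    · exact hc_fn (Eventually.of_forall fun _ _ _ _ _ e => congrArg Prod.fst e)
    · refine hc_zero_pair (tame_ps h.bd hl ht) (tame_dirv h.bdm hl) (zero_ps_tb hl ht) ?_
      refine hc_fn (Eventually.of_forall fun i ω ω' _ _ e => ?_)
      simp only [pr_apply, Prod.mk.injEq] at e
      exact fl_of_fl (h.mn i) _ _ (Prod.mk.inj e.2).2
  refine hc_zero_left (tame_tl h hl ht)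
    ((t01_tame ht h.bds).pr ((tame_ps h.bd hl ht).pr (tame_dirv h.bdm hl))) h1 ?_
  refine Eventually.of_forall fun i ω ω' _ _ e => ?_
  simp only [pr_apply, Prod.mk.injEq] at e
  have hm : n i - s i = m i := by have := h.add i; omega
  show (_, _, _) = (_, _, _)
  rw [hm]
  exact Prod.ext e.1 (Prod.ext e.2.1 e.2.2)

/-- the fine point is a function of the tubelet and of the fine time -/
theorem zero_fine (h : Par S n s m) (hl : LnA l) (ht' : T01 t')
    (hn : S.Ae fun i ω => |t' i ω - t i ω| ≤ 2 * (1 / 2 : ℝ) ^ s i) :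
    S.hc (pqs n (pt l t')) (Sys.pr (dg n t') (tl s n l t)) = 0 := by
  refine hc_zero_pair (X := dg n t') (t01_tame ht' h.bd) (tame_posv h.bd hl (t01_abs ht')) ?_ ?_
  · exact hc_fn (Eventually.of_forall fun _ _ _ _ _ e => congrArg Prod.fst e)
  · refine hc_zero_fl n 5 (fun i ω => pos (l i ω) (t' i ω)) _ ?_
    filter_upwards [hn, hl] with i h1 h2 ω ω' hω hω' e j
    simp only [pr_apply, Prod.mk.injEq] at e
    obtain ⟨e1, e2⟩ := e
    have hm : n i - s i = m i := by have := h.add i; omega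
    have f1 : fl1 (s i) (t i ω') = fl1 (s i) (t i ω) := congrArg (fun q => q.1) e2
    have f2 : fl (n i) (pos (l i ω') (qa (s i) (t i ω'))) =
      fl (n i) (pos (l i ω) (qa (s i) (t i ω))) := congrArg (fun q => q.2.1) e2
    have f3 : fl (n i - s i) (l i ω').2 = fl (n i - s i) (l i ω).2 := congrArg (fun q => q.2.2) e2
    rw [hm] at f3
    have g1 : qa (s i) (t i ω') = qa (s i) (t i ω) := qa_congr f1
    have g2 := fl_close1 f2 j
    have g3 := fl_close1 f3 j
    have g4 : |t' i ω' - t' i ω| ≤ (1 / 2 : ℝ) ^ n i := fl1_close e1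
    have g5 : |t' i ω' - qa (s i) (t i ω')| ≤ 3 * (1 / 2 : ℝ) ^ s i := by
      have a1 := h1 ω' hω'
      have a2 := qa_close (s i) (t i ω')
      have a3 : t' i ω' - qa (s i) (t i ω') = (t' i ω' - t i ω') + (t i ω' - qa (s i) (t i ω')) := by
        ring
      rw [a3]
      exact (abs_add_le _ _).trans (by linarith)
    have g6 : (1 / 2 : ℝ) ^ s i * (1 / 2) ^ m i = (1 / 2) ^ n i := by
      rw [← pow_add, h.add i]
    have key : pos (l i ω') (t' i ω') j - pos (l i ω) (t' i ω) j =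
        (pos (l i ω') (qa (s i) (t i ω')) j - pos (l i ω) (qa (s i) (t i ω)) j) +
        (t' i ω' - qa (s i) (t i ω')) * ((l i ω').2 j - (l i ω).2 j) +
        (t' i ω' - t' i ω) * (l i ω).2 j := by
      rw [g1]
      unfold pos
      ring
    rw [key]
    have b1 := abs_le_of_mul g5 g3
    have b2 := abs_le_of_mul g4 ((h2 ω hω).2 j)
    have := abs_add3 g2 b1 b2
    push_cast
    have b3 : 3 * (1 / 2 : ℝ) ^ s i * (1 / 2) ^ m i = 3 * (1 / 2) ^ n i := by rw [← g6]; ring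
    linarith

end rel

section fill

variable {S : Sys} {γ : Type} {n s m : ℕ → ℕ}

/-- extension by uniform fine digits of the time -/
theorem exists_fine (h : Par S n s m) (t : S.RV ℝ) (ht : T01 t) :
    ∃ (S' : Sys) (e : Ext S' S) (t' : S'.RV ℝ), T01 t' ∧
      (S'.Ae fun i ω => |t' i ω - e.pull t i ω| ≤ 2 * (1 / 2 : ℝ) ^ s i) ∧
      (∀ (δ : Type) (Y : S.RV δ), S'.hc (dg n t') (e.pull Y) = S.hc (dg s t) Y + S.nu m) ∧
      ∀ (δ δ' : Type) (X : S.RV δ) (Y : S.RV δ'), Tame X →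
        S'.hc (e.pull X) (Sys.pr (dg n t') (Sys.pr (e.pull (dg s t)) (e.pull Y))) =
          S.hc X (Sys.pr (dg s t) Y) := by
  obtain ⟨S', e, u, hu, hu'⟩ := exists_unif S m
  have hP : Par S' n s m := h.ext e
  set c₀ : S.RV ℤ := fun i ω => cl (s i) (t i ω) with hc₀
  set t' : S'.RV ℝ := fun i ω => nt (m i) (n i) (e.pull c₀ i ω) (u i ω) with ht'd
  have hnt : S'.Ae fun i ω => 0 ≤ t' i ω ∧ t' i ω ≤ 1 ∧
      |t' i ω - e.pull t i ω| ≤ 2 * (1 / 2 : ℝ) ^ s i := by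
    filter_upwards [ext_t01 e ht] with i hi ω hω
    exact nt_facts (h.add i) (hi ω hω).1 (hi ω hω).2 (hu i ω).1 (hu i ω).2
  have ht' : T01 t' := by
    filter_upwards [hnt] with i hi ω hω
    exact ⟨(hi ω hω).1, (hi ω hω).2.1⟩
  have tds : Tame (dg s t) := t01_tame ht h.bds
  have tc₀ : Tame c₀ := by
    refine tds.mono (Eventually.of_forall fun i ω ω' _ _ e => ?_)
    show min (fl1 (s i) (t i ω)) _ = min (fl1 (s i) (t i ω')) _
    have e' : fl1 (s i) (t i ω) = fl1 (s i) (t i ω') := e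
    rw [e']
  have tu : Tame u := tame_digits hP.bdm hu
  have f1 : Fn (dg n t') (Sys.pr (e.pull c₀) u) := by
    refine Eventually.of_forall fun i ω ω' _ _ e => ?_
    simp only [pr_apply, Prod.mk.injEq] at e
    show fl1 (n i) (nt _ _ _ _) = fl1 (n i) (nt _ _ _ _)
    rw [fl1_nt, fl1_nt, e.1, e.2]
  have f2 : Fn (Sys.pr (e.pull c₀) u) (dg n t') := by
    refine Eventually.of_forall fun i ω ω' _ _ e1 => ?_
    have e1 : fl1 (n i) (nt (m i) (n i) (e.pull c₀ i ω) (u i ω)) =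
      fl1 (n i) (nt (m i) (n i) (e.pull c₀ i ω') (u i ω')) := e1
    rw [fl1_nt, fl1_nt] at e1
    have b1 := hu i ω
    have b2 := hu i ω'
    have b3 : e.pull c₀ i ω = e.pull c₀ i ω' := by
      have q1 : (e.pull c₀ i ω * 2 ^ m i + u i ω) / 2 ^ m i = e.pull c₀ i ω := by
        rw [add_comm, Int.add_mul_ediv_right _ _ (by positivity),
          Int.ediv_eq_zero_of_lt b1.1 b1.2, zero_add]
      have q2 : (e.pull c₀ i ω' * 2 ^ m i + u i ω') / 2 ^ m i = e.pull c₀ i ω' := by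
        rw [add_comm, Int.add_mul_ediv_right _ _ (by positivity),
          Int.ediv_eq_zero_of_lt b2.1 b2.2, zero_add]
      rw [← q1, ← q2, e1]
    simp only [pr_apply, Prod.mk.injEq]
    refine ⟨b3, ?_⟩
    rw [b3] at e1
    linarith
  have z1 : S.hc c₀ (dg s t) = 0 := by
    refine hc_fn (Eventually.of_forall fun i ω ω' _ _ e => ?_)
    show min (fl1 (s i) (t i ω)) _ = min (fl1 (s i) (t i ω')) _
    have e' : fl1 (s i) (t i ω) = fl1 (s i) (t i ω') := e
    rw [e']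
  have z2 : S.hc (dg s t) c₀ = 0 := by
    refine hc_zero_int 1 (dg s t) _ ?_
    filter_upwards [ht] with i hi ω ω' hω hω' e
    have e' : cl (s i) (t i ω') = cl (s i) (t i ω) := e
    obtain ⟨-, -, c2, c3⟩ := cl_facts (s := s i) (hi ω hω).1 (hi ω hω).2
    obtain ⟨-, -, c2', c3'⟩ := cl_facts (s := s i) (hi ω' hω').1 (hi ω' hω').2
    show |fl1 (s i) (t i ω') - fl1 (s i) (t i ω)| ≤ _
    rw [e'] at c2' c3'
    rw [abs_le]
    push_cast
    constructor <;> linarith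
  refine ⟨S', e, t', ht', ?_, ?_, ?_⟩
  · filter_upwards [hnt] with i hi ω hω
    exact (hi ω hω).2.2
  · intro δ Y
    have a1 : S'.hc (dg n t') (e.pull Y) = S'.hc (Sys.pr (e.pull c₀) u) (e.pull Y) :=
      hc_congr (f1.mono fun i hi ω ω' hω hω' q => hi ω ω' hω hω' (congrArg Prod.fst q))
        (f2.mono fun i hi ω ω' hω hω' q => hi ω ω' hω hω' (congrArg Prod.fst q))
        (Eventually.of_forall fun _ _ _ _ _ q => q) (Eventually.of_forall fun _ _ _ _ _ q => q)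
    rw [a1, hc_pair (e.tame tc₀) tu]
    have a2 : S'.hc (e.pull c₀) (e.pull Y) = S.hc c₀ Y := e.hc c₀ Y
    have a3 : S'.hc u (Sys.pr (e.pull c₀) (e.pull Y)) = S.nu m := hu' _ (Sys.pr c₀ Y)
    rw [a2, a3]
    congr 1
    exact hc_eq_of_zero tc₀ tds (zero_more tc₀ z1) (zero_more tds z2)
  · intro δ δ' X Y hX
    have tX : Tame (e.pull X) := e.tame hX
    have b0 : Tame (e.pull (dg s t)) := e.tame tds
    -- replace `dg n t'` by `(c₀, u)`
    have a1 : S'.hc (e.pull X) (Sys.pr (dg n t') (Sys.pr (e.pull (dg s t)) (e.pull Y))) =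
        S'.hc (e.pull X) (Sys.pr (Sys.pr (e.pull c₀) u) (Sys.pr (e.pull (dg s t)) (e.pull Y))) := by
      refine hc_congr (Eventually.of_forall fun _ _ _ _ _ q => congrArg Prod.fst q)
        (Eventually.of_forall fun _ _ _ _ _ q => congrArg Prod.fst q) ?_ ?_
      · exact f1.mono fun i hi ω ω' hω hω' q => Prod.ext (hi ω ω' hω hω' (congrArg Prod.fst q))
          (congrArg (fun r => r.2) q)
      · exact f2.mono fun i hi ω ω' hω hω' q => Prod.ext (hi ω ω' hω hω' (congrArg Prod.fst q))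
          (congrArg (fun r => r.2) q)
    have a2 : S'.hc (e.pull X) (Sys.pr (Sys.pr (e.pull c₀) u) (Sys.pr (e.pull (dg s t)) (e.pull Y))) =
        S'.hc (e.pull X) (Sys.pr u (Sys.pr (e.pull c₀) (Sys.pr (e.pull (dg s t)) (e.pull Y)))) := by
      refine hc_congr (Eventually.of_forall fun _ _ _ _ _ q => congrArg Prod.fst q)
        (Eventually.of_forall fun _ _ _ _ _ q => congrArg Prod.fst q) ?_ ?_
      · refine Eventually.of_forall fun _ _ _ _ _ q => ?_
        simp only [pr_apply, Prod.mk.injEq] at q ⊢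
        exact ⟨⟨q.2.1, q.1⟩, q.2.2⟩
      · refine Eventually.of_forall fun _ _ _ _ _ q => ?_
        simp only [pr_apply, Prod.mk.injEq] at q ⊢
        exact ⟨q.1.2, q.1.1, q.2⟩
    have a3 := hc_swap tX tu (Sys.pr (e.pull c₀) (Sys.pr (e.pull (dg s t)) (e.pull Y)))
    have a4 : S'.hc u (Sys.pr (e.pull c₀) (Sys.pr (e.pull (dg s t)) (e.pull Y))) = S.nu m :=
      hu' _ (Sys.pr c₀ (Sys.pr (dg s t) Y))
    have a5 : S'.hc u (Sys.pr (e.pull X) (Sys.pr (e.pull c₀) (Sys.pr (e.pull (dg s t)) (e.pull Y)))) =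
        S.nu m := hu' _ (Sys.pr X (Sys.pr c₀ (Sys.pr (dg s t) Y)))
    have a6 : S'.hc (e.pull X) (Sys.pr (e.pull c₀) (Sys.pr (e.pull (dg s t)) (e.pull Y))) =
        S'.hc (e.pull X) (Sys.pr (e.pull (dg s t)) (e.pull Y)) := by
      refine hc_cond_zero tX (e.tame tc₀) ?_
      have q1 : S'.hc (e.pull c₀) (e.pull (dg s t)) = 0 := (e.hc c₀ (dg s t)).trans z1
      exact zero_more (e.tame tc₀) q1
    have a7 : S'.hc (e.pull X) (Sys.pr (e.pull (dg s t)) (e.pull Y)) = S.hc X (Sys.pr (dg s t) Y) :=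
      e.hc X (Sys.pr (dg s t) Y)
    linarith

/-- **(K), general form**: the inequality `JS N β` at all levels, with side information -/
theorem kk {N β : ℝ} (hJ : JS N β) (C : S.RV γ) {l : S.RV Ln} {t : S.RV ℝ}
    (h : Par S n s m) (hl : LnA l) (ht : T01 t) :
    S.exc (tubes m (bl s l t)) (Sys.pr (pqs s (pt l t)) C) +
        S.hc (tbs n l) (Sys.pr (tl s n l t) C) ≤
      β * S.nu n + S.exc (tubes n l) C + N * (S.nu s - S.hc (dg s t) (Sys.pr (tbs n l) C)) := by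
  have hB : BxA (tubes m (bl s l t)) := tubes_bxA h.bdm (bl_ok hl)
  -- an optimal box
  obtain ⟨S₂, e₂, W, hWA, hWS, hWv, -⟩ :=
    pExcAtt S _ (Sys.pr (pqs s (pt l t)) C) (tubes m (bl s l t)) hB
  have h₂ : Par S₂ n s m := h.ext e₂
  have hl₂ : LnA (e₂.pull l) := ext_lnA e₂ hl
  have ht₂ : T01 (e₂.pull t) := ext_t01 e₂ ht
  -- fine digits of the time
  obtain ⟨S₁, e₁, t', ht', hnear, hd, hx⟩ := exists_fine h₂ (e₂.pull t) ht₂
  have h₁ : Par S₁ n s m := h₂.ext e₁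
  have hl₁ : LnA (e₁.pull (e₂.pull l)) := ext_lnA e₁ hl₂
  have ht₁ : T01 (e₁.pull (e₂.pull t)) := ext_t01 e₁ ht₂
  set l₁ := e₁.pull (e₂.pull l) with hl₁d
  set t₁ := e₁.pull (e₂.pull t) with ht₁d
  set C₁ : S₁.RV γ := e₁.pull (e₂.pull C) with hC₁
  set P' := pqs n (pt l₁ t') with hP'
  set A : S₁.RV Lab := BX.lab (tubes m (bl s l₁ t₁)) with hA
  set T := tl s n l₁ t₁ with hT
  set D := Sys.pr (pqs s (pt l₁ t₁)) C₁ with hD
  set Wl : S₁.RV Lab := e₁.pull (BX.lab W) with hWl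
  have tP' : Tame P' := tame_pqs h₁.bd hl₁ ht'
  have tp : Tame (pqs s (pt l₁ t₁)) := tame_pqs h₁.bds hl₁ ht₁
  have tA : Tame A := (tubes_bxA h₁.bdm (bl_ok hl₁)).tame
  have tT : Tame T := tame_tl h₁ hl₁ ht₁
  have tW : Tame Wl := e₁.tame hWA.tame
  have ttb : Tame (tbs n l₁) := Fi.tame_tbs h₁.bd hl₁
  have tdn : Tame (dg n t') := t01_tame ht' h₁.bd
  have tds : Tame (dg s t₁) := t01_tame ht₁ h₁.bds
  -- (1) the inequality with price `N` for the fine point
  have k1 : S₁.hc (tbs n l₁) (Sys.pr P' C₁) ≤ β * S₁.nu n + S₁.exc (tubes n l₁) C₁ +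
      N * (S₁.nu n - S₁.hc P' (Sys.pr (tbs n l₁) C₁)) := by
    refine hJ S₁ γ C₁ l₁ (pt l₁ t') n h₁.bd hl₁ ⟨0, ?_⟩
    filter_upwards [ht'] with i hi ω hω
    refine ⟨(hi ω hω).1, (hi ω hω).2, ?_, ?_⟩
    · show |co 0 (fun i_1 => pos (l₁ i ω) (t' i ω) i_1 - pos (l₁ i ω) (t' i ω) i_1) 0| ≤ _
      rw [co_sub, sub_self, abs_zero, zero_mul]
    · show |co 0 (fun i_1 => pos (l₁ i ω) (t' i ω) i_1 - pos (l₁ i ω) (t' i ω) i_1) 1| ≤ _
      rw [co_sub, sub_self, abs_zero, zero_mul]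
  have k2 : S₁.hc P' (Sys.pr (tbs n l₁) C₁) = S₁.hc (dg n t') (Sys.pr (tbs n l₁) C₁) := by
    refine hc_eq_of_zero tP' tdn ?_ ?_
    · refine hc_zero_mono tP' (zero_pt h₁.bd hl₁ ht') (Eventually.of_forall fun i ω ω' _ _ q => ?_)
      simp only [pr_apply, Prod.mk.injEq] at q ⊢
      exact ⟨q.1, q.2.1⟩
    · exact hc_fn (Eventually.of_forall fun i ω ω' _ _ q => by
        simp only [pr_apply, Prod.mk.injEq] at q
        exact congrArg Prod.fst q.1)
  have k3 : S₁.hc (dg n t') (Sys.pr (tbs n l₁) C₁) = S.hc (dg s t) (Sys.pr (tbs n l) C) + S.nu m := by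
    have a1 : S₁.hc (dg n t') (Sys.pr (tbs n l₁) C₁) =
      S₂.hc (dg s (e₂.pull t)) (Sys.pr (tbs n (e₂.pull l)) (e₂.pull C)) + S₂.nu m :=
      hd _ (Sys.pr (tbs n (e₂.pull l)) (e₂.pull C))
    have a2 : S₂.hc (dg s (e₂.pull t)) (Sys.pr (tbs n (e₂.pull l)) (e₂.pull C)) =
      S.hc (dg s t) (Sys.pr (tbs n l) C) := e₂.hc (dg s t) (Sys.pr (tbs n l) C)
    rw [a1, a2, nu_ext e₂]
  have k4 : S₁.exc (tubes n l₁) C₁ = S.exc (tubes n l) C := by
    have a1 : S₁.exc (tubes n l₁) C₁ = S₂.exc (tubes n (e₂.pull l)) (e₂.pull C) :=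
      exc_ext e₁ (e₂.pull C) (tubes n (e₂.pull l))
    have a2 : S₂.exc (tubes n (e₂.pull l)) (e₂.pull C) = S.exc (tubes n l) C :=
      exc_ext e₂ C (tubes n l)
    rw [a1, a2]
  -- (2) the tubelet given the fine point
  have z1 : S₁.hc (pqs s (pt l₁ t₁)) P' = 0 := zero_coarse h₁ hl₁ ht₁ ht' hnear
  have z1' : S₁.hc (dg s t₁) P' = 0 := hc_zero_left tds tp z1 fn_time
  have z2 : S₁.hc T (Sys.pr P' (Sys.pr (tbs n l₁) C₁)) = 0 := by
    have a1 : S₁.hc (Sys.pr (dg s t₁) (tbs n l₁)) (Sys.pr P' (Sys.pr (tbs n l₁) C₁)) = 0 :=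
      hc_zero_pair tds ttb (zero_more tds z1')
        (hc_fn (Eventually.of_forall fun i ω ω' _ _ q => by
          simp only [pr_apply, Prod.mk.injEq] at q
          exact q.2.1))
    exact hc_zero_trans tT (tds.pr ttb) (zero_tl_tb h₁ hl₁ ht₁) a1
  have k5 : S₁.hc (tbs n l₁) (Sys.pr P' C₁) =
      S₁.hc T (Sys.pr P' C₁) + S₁.hc (tbs n l₁) (Sys.pr T (Sys.pr P' C₁)) := by
    have a1 := hc_swap tT ttb (Sys.pr P' C₁)
    have a2 : S₁.hc T (Sys.pr (tbs n l₁) (Sys.pr P' C₁)) = 0 := by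
      refine hc_zero_mono tT z2 (Eventually.of_forall fun i ω ω' _ _ q => ?_)
      simp only [pr_apply, Prod.mk.injEq] at q ⊢
      exact ⟨q.2.1, q.1, q.2.2⟩
    linarith
  -- the second term
  have k6 : S.hc (tbs n l) (Sys.pr (tl s n l t) C) ≤ S₁.hc (tbs n l₁) (Sys.pr T (Sys.pr P' C₁)) := by
    have a1 := hx _ _ (tbs n (e₂.pull l)) (Sys.pr (tl s n (e₂.pull l) (e₂.pull t)) (e₂.pull C))
      (Fi.tame_tbs h₂.bd hl₂)
    have a1' : S₁.hc (tbs n l₁) (Sys.pr (dg n t') (Sys.pr (dg s t₁) (Sys.pr T C₁))) =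
      S₂.hc (tbs n (e₂.pull l)) (Sys.pr (dg s (e₂.pull t))
        (Sys.pr (tl s n (e₂.pull l) (e₂.pull t)) (e₂.pull C))) := a1
    have a2 : S₂.hc (tbs n (e₂.pull l)) (Sys.pr (dg s (e₂.pull t))
        (Sys.pr (tl s n (e₂.pull l) (e₂.pull t)) (e₂.pull C))) =
        S.hc (tbs n l) (Sys.pr (dg s t) (Sys.pr (tl s n l t) C)) :=
      e₂.hc (tbs n l) (Sys.pr (dg s t) (Sys.pr (tl s n l t) C))
    have a3 : S.hc (tbs n l) (Sys.pr (dg s t) (Sys.pr (tl s n l t) C)) =
        S.hc (tbs n l) (Sys.pr (tl s n l t) C) :=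
      hc_congr (Eventually.of_forall fun _ _ _ _ _ q => congrArg Prod.fst q)
        (Eventually.of_forall fun _ _ _ _ _ q => congrArg Prod.fst q)
        (Eventually.of_forall fun i ω ω' _ _ q => by
          simp only [pr_apply, Prod.mk.injEq] at q ⊢
          exact ⟨congrArg (fun r => r.1) q.1, q⟩)
        (Eventually.of_forall fun i ω ω' _ _ q => congrArg Prod.snd q)
    have a4 : S₁.hc (tbs n l₁) (Sys.pr (dg n t') (Sys.pr (dg s t₁) (Sys.pr T C₁))) ≤
        S₁.hc (tbs n l₁) (Sys.pr T (Sys.pr P' C₁)) := by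
      have b2 : S₁.hc P' (Sys.pr (dg n t') (Sys.pr (dg s t₁) (Sys.pr T C₁))) = 0 := by
        refine hc_zero_mono tP' (zero_fine h₁ hl₁ ht' hnear)
          (Eventually.of_forall fun i ω ω' _ _ q => ?_)
        simp only [pr_apply, Prod.mk.injEq] at q ⊢
        exact ⟨q.1, q.2.2.1⟩
      rw [← hc_cond_zero ttb tP' b2]
      refine hc_mono_right ttb (Eventually.of_forall fun i ω ω' _ _ q => ?_)
      simp only [pr_apply, Prod.mk.injEq] at q ⊢
      exact ⟨q.2.2.2.1, q.1, q.2.2.2.2⟩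
    linarith
  -- the first term
  have k7 : S.exc (tubes m (bl s l t)) (Sys.pr (pqs s (pt l t)) C) ≤ S₁.hc T (Sys.pr P' C₁) := by
    have a1 : S₁.hc A (Sys.pr P' (Sys.pr Wl D)) ≤ S₁.hc T (Sys.pr P' C₁) := by
      have b1 : S₁.hc A (Sys.pr P' (Sys.pr Wl D)) ≤ S₁.hc T (Sys.pr P' (Sys.pr Wl D)) := by
        refine hc_mono_left tT tA ?_
        exact (fn_tl_lab h₁).mono fun i hi ω ω' hω hω' q => hi ω ω' hω hω' (congrArg Prod.fst q)
      refine b1.trans (hc_mono_right tT (Eventually.of_forall fun i ω ω' _ _ q => ?_))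
      simp only [pr_apply, Prod.mk.injEq] at q ⊢
      exact ⟨q.1, (congrArg Prod.snd q.2.2 : _)⟩
    have a2 := hc_swap tA tP' (Sys.pr Wl D)
    have a3 : S₁.nu m ≤ S₁.hc P' (Sys.pr A (Sys.pr Wl D)) := by
      have b1 : S₁.hc (dg n t') (Sys.pr A (Sys.pr Wl D)) ≤ S₁.hc P' (Sys.pr A (Sys.pr Wl D)) :=
        hc_mono_left tP' tdn (Eventually.of_forall fun i ω ω' _ _ q => by
          simp only [pr_apply, Prod.mk.injEq] at q
          exact congrArg Prod.fst q.1)
      have b2 := hd _ (Sys.pr (BX.lab (tubes m (bl s (e₂.pull l) (e₂.pull t)))) (Sys.pr (BX.lab W)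
        (Sys.pr (pqs s (pt (e₂.pull l) (e₂.pull t))) (e₂.pull C))))
      have b3 : 0 ≤ S₂.hc (dg s (e₂.pull t)) (Sys.pr (BX.lab (tubes m (bl s (e₂.pull l) (e₂.pull t))))
        (Sys.pr (BX.lab W) (Sys.pr (pqs s (pt (e₂.pull l) (e₂.pull t))) (e₂.pull C)))) :=
        hc_nonneg (t01_tame ht₂ h₂.bds) _
      have b4 : S₁.hc (dg n t') (Sys.pr A (Sys.pr Wl D)) =
        S₂.hc (dg s (e₂.pull t)) (Sys.pr (BX.lab (tubes m (bl s (e₂.pull l) (e₂.pull t))))
        (Sys.pr (BX.lab W) (Sys.pr (pqs s (pt (e₂.pull l) (e₂.pull t))) (e₂.pull C)))) + S₂.nu m := b2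
      have b5 := nu_ext e₁ m
      linarith
    have a4 : S₁.hc P' (Sys.pr Wl D) ≤ 3 * S.nu m - S₂.av W.sz := by
      have hWS' : SubA (tubes m (bl s l₁ t₁)) (e₁.pullB W) := ExcB.subA_pull e₁ hWS
      have b1 := count h₁ hl₁ ht₁ ht' hnear hWS'
      have b2 : S₁.hc P' (Sys.pr Wl D) ≤ S₁.hc P' (Sys.pr (BX.lab (e₁.pullB W)) (pqs s (pt l₁ t₁))) := by
        refine hc_mono_right tP' (Eventually.of_forall fun i ω ω' _ _ q => ?_)
        simp only [pr_apply, Prod.mk.injEq] at q ⊢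
        exact ⟨q.1, congrArg Prod.fst q.2⟩
      have b3 : S₁.av (e₁.pullB W).sz = S₂.av W.sz := e₁.av W.sz
      rw [b3, nu_ext e₁, nu_ext e₂] at b1
      exact b2.trans b1
    have a5 : S₁.hc A (Sys.pr Wl D) - (2 * S.nu m - S₂.av W.sz) =
        S.exc (tubes m (bl s l t)) (Sys.pr (pqs s (pt l t)) C) := by
      have hB₂ : BxA (tubes m (bl s (e₂.pull l) (e₂.pull t))) := e₂.bxA hB
      have c1 : S₂.av (fun i ω => ((tubes m (bl s (e₂.pull l) (e₂.pull t))) i).sz ω - (W i).sz ω) =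
          2 * S₂.nu m - S₂.av W.sz := by
        have c2 := av_sub (ol_sz hB₂) (ol_sz hWA)
        have c3 : S₂.av (BX.sz (tubes m (bl s (e₂.pull l) (e₂.pull t)))) = 2 * S₂.nu m := by
          have : BX.sz (tubes m (bl s (e₂.pull l) (e₂.pull t))) = fun i _ => 2 * (m i : ℝ) := by
            funext i ω
            show (m i : ℝ) + m i = _
            ring
          rw [this, av_const]
          unfold nu
          rw [← ulim_const_mul 2 (ub_nu h₂.bdm)]
          refine ulim_congr (Eventually.of_forall fun i => ?_)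
          ring
        rw [← c3]
        exact c2
      have c4 : S₁.hc A (Sys.pr Wl D) = S₂.hc (BX.lab (tubes m (bl s (e₂.pull l) (e₂.pull t))))
        (Sys.pr (BX.lab W) (Sys.pr (pqs s (pt (e₂.pull l) (e₂.pull t))) (e₂.pull C))) :=
        e₁.hc (BX.lab (tubes m (bl s (e₂.pull l) (e₂.pull t))))
          (Sys.pr (BX.lab W) (Sys.pr (pqs s (pt (e₂.pull l) (e₂.pull t))) (e₂.pull C)))
      rw [← hWv, c4, ← nu_ext e₂, ← c1]
      rfl
    have a6 := nu_ext e₁ m
    have a7 := nu_ext e₂ m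
    linarith
  have k8 : S₁.nu n = S.nu n := (nu_ext e₁ n).trans (nu_ext e₂ n)
  have k9 := nu_add h
  rw [k4, k8, k2, k3] at k1
  have k10 : S.nu n - (S.hc (dg s t) (Sys.pr (tbs n l) C) + S.nu m) =
      S.nu s - S.hc (dg s t) (Sys.pr (tbs n l) C) := by linarith
  rw [k10] at k1
  linarith

end fill

/-- **(K)** from the final result of P127 -/
theorem k0 (hJ : ∀ β : ℝ, 0 < β → JF 2 β) {S : Sys} {γ : Type} (C : S.RV γ) {l : S.RV Ln}
    {t : S.RV ℝ} {n s m : ℕ → ℕ} (h : Par S n s m) (hl : LnA l) (ht : T01 t) :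
    S.exc (tubes m (bl s l t)) (Sys.pr (pqs s (pt l t)) C) +
        S.hc (tbs n l) (Sys.pr (tl s n l t) C) ≤
      S.exc (tubes n l) C + 2 * (S.nu s - S.hc (dg s t) (Sys.pr (tbs n l) C)) := by
  have h1 : ∀ β : ℝ, 0 < β → S.exc (tubes m (bl s l t)) (Sys.pr (pqs s (pt l t)) C) +
        S.hc (tbs n l) (Sys.pr (tl s n l t) C) ≤ β * S.nu n +
      (S.exc (tubes n l) C + 2 * (S.nu s - S.hc (dg s t) (Sys.pr (tbs n l) C))) := by
    intro β hβ
    have := kk (pJS 2 β (by norm_num) hβ.le (hJ β hβ)) C h hl ht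
    linarith
  have h2 : 0 ≤ S.nu n := const_le_ulim (ub_nu h.bd) (Eventually.of_forall fun i => by positivity)
  refine le_of_forall_pos_le_add fun ε hε => ?_
  have h3 := h1 (ε / (S.nu n + 1)) (by positivity)
  have h4 : ε / (S.nu n + 1) * S.nu n ≤ ε := by
    rw [div_mul_eq_mul_div, div_le_iff₀ (by positivity)]
    nlinarith
  linarith

end Vale.Agent.P122.K931
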