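import Vale.Agent.P122.K931.Zero

/-!
# P122 / K931 : tubes, pieces and balls of a system of flags, zero entropies (helper931)

For `c ≤ d ≤ 2 c`, `d ≤ K`; `s = ds c d` digits of time, `m = m (2 c - d)` digits of the piece:
* `z_ball` : `ball c` is a function of the coarse point of the tube of level `d` and of `ball d`;
* `z_ball_down` : `ball d` is a function of `ball c`;
* `z_sig`, `z_sig'` : `sig c d` and the tube of precision `m` of `ln c` in `ball c`;
* `z_node`, `z_node'` : `N d` and the tube `ln d` in `ball d`;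
* `z_tl`, `z_tl'` : `sig c d` and the tubelet of `ln d`;
* `z_sig_T` : `sig c d` is a function of `T c`, `N d`.
-/

set_option autoImplicit false

namespace Vale.Agent.P122.K931

open Filter Topology Finset Vale.Agent.P127 Vale.Agent.P127.Stk Vale.Agent.P127.U Vale.Agent.P127.U.Sys
open Vale.Agent.P127.U.Fi Vale.Agent.P122.C2 Vale.Agent.P122.E

theorem floor_div_pow (a : ℤ) (N : ℕ) : ⌊(a:ℝ) / 2 ^ N⌋ = a / 2 ^ N := by
  have h : ((2:ℝ) ^ N) = ((2 ^ N : ℕ) : ℝ) := by push_cast; rfl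
  rw [h, Int.floor_div_natCast, Int.floor_intCast]
  push_cast
  rfl

theorem floor_near {x y : ℝ} {C : ℕ} (h : |x - y| ≤ C) : |⌊x⌋ - ⌊y⌋| ≤ (C:ℤ) + 1 := by
  have h2 := Int.floor_le x
  have h3 := Int.lt_floor_add_one x
  have h4 := Int.floor_le y
  have h5 := Int.lt_floor_add_one y
  have h6 := abs_le.1 h
  have h7 : ((⌊x⌋ - ⌊y⌋ : ℤ) : ℝ) < ((C:ℤ) + 1 : ℤ) + 1 := by push_cast; linarith
  have h8 : (-(((C:ℤ) + 1 : ℤ) : ℝ)) - 1 < ((⌊x⌋ - ⌊y⌋ : ℤ) : ℝ) := by push_cast; linarith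
  have h9 : ⌊x⌋ - ⌊y⌋ < ((C:ℤ) + 1) + 1 := by exact_mod_cast h7
  have h10 : -((C:ℤ) + 1) - 1 < ⌊x⌋ - ⌊y⌋ := by exact_mod_cast h8
  rw [abs_le]
  constructor <;> omega

section caps

variable {K : ℕ} (F : Flg K) {c d : ℕ}

theorem pow_split (hcd : c ≤ d) (hd : d ≤ 2 * c) (i : ℕ) :
    (2:ℝ) ^ (c * F.n i) = 2 ^ ((d - c) * F.n i) * 2 ^ (F.m (2 * c - d) i) := by
  rw [← pow_add]
  congr 1
  show c * F.n i = (d - c) * F.n i + (2 * c - d) * F.n i
  rw [← add_mul]
  congr 1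
  omega

theorem half_pow (N : ℕ) : (1 / 2 : ℝ) ^ N = 1 / 2 ^ N := by rw [div_pow, one_pow]

/-- close slopes, close caps -/
theorem cap_close (hcd : c ≤ d) (hd : d ≤ 2 * c) (hcK : c ≤ K) {i : ℕ} {τ τ' : Z2}
    (h : Cap (F.n i) c τ) (h' : Cap (F.n i) c τ') {B : ℝ}
    (hs : ∀ k, |F.s i c τ' k - F.s i c τ k| ≤ B * (1 / 2 : ℝ) ^ (F.m (2 * c - d) i)) (k : Fin 2) :
    |τ' k / 2 ^ ((d - c) * F.n i) - τ k / 2 ^ ((d - c) * F.n i)| ≤ (⌈F.C * (2 * B + 1)⌉₊ : ℤ) + 1 := by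
  have hC := C_nonneg F
  have h1 := (F.slp i).colip c τ' τ hcK h' h
  have h2 : (2:ℝ) ^ (c * F.n i) * (|F.s i c τ' 0 - F.s i c τ 0| + |F.s i c τ' 1 - F.s i c τ 1|) ≤
      2 * B * 2 ^ ((d - c) * F.n i) := by
    have a0 := hs 0
    have a1 := hs 1
    rw [pow_split F hcd hd i]
    have hp : (0:ℝ) < 2 ^ (F.m (2 * c - d) i) := by positivity
    have hq : (0:ℝ) < 2 ^ ((d - c) * F.n i) := by positivity
    have e1 : (2:ℝ) ^ (F.m (2 * c - d) i) * (B * (1 / 2 : ℝ) ^ (F.m (2 * c - d) i)) = B := by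
      rw [half_pow]
      field_simp
    calc (2:ℝ) ^ ((d - c) * F.n i) * 2 ^ (F.m (2 * c - d) i) *
          (|F.s i c τ' 0 - F.s i c τ 0| + |F.s i c τ' 1 - F.s i c τ 1|)
        ≤ (2:ℝ) ^ ((d - c) * F.n i) * 2 ^ (F.m (2 * c - d) i) *
          (B * (1 / 2 : ℝ) ^ (F.m (2 * c - d) i) + B * (1 / 2 : ℝ) ^ (F.m (2 * c - d) i)) := by gcongr
      _ = 2 * (2 ^ (F.m (2 * c - d) i) * (B * (1 / 2 : ℝ) ^ (F.m (2 * c - d) i))) *
          2 ^ ((d - c) * F.n i) := by ring
      _ = _ := by rw [e1]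
  have h3 : (1:ℝ) ≤ 2 ^ ((d - c) * F.n i) := one_le_pow₀ (by norm_num)
  have h4 : |((τ' k : ℤ) : ℝ) - τ k| ≤ F.C * (2 * B + 1) * 2 ^ ((d - c) * F.n i) := by
    have h5 : |((τ' k : ℤ) : ℝ) - τ k| ≤ |((τ' 0 : ℤ) : ℝ) - τ 0| + |((τ' 1 : ℤ) : ℝ) - τ 1| := by
      fin_cases k
      · simp
      · simp
    refine h5.trans (h1.trans ?_)
    calc F.C * ((2:ℝ) ^ (c * F.n i) * (|F.s i c τ' 0 - F.s i c τ 0| + |F.s i c τ' 1 - F.s i c τ 1|) + 1)
        ≤ F.C * (2 * B * 2 ^ ((d - c) * F.n i) + 1 * 2 ^ ((d - c) * F.n i)) := by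
          apply mul_le_mul_of_nonneg_left _ hC
          linarith
      _ = _ := by ring
  have h6 := ediv_close (a := τ' k) (b := τ k) (N := 2 ^ ((d - c) * F.n i))
    (C := ⌈F.C * (2 * B + 1)⌉₊) (by positivity) (by
      refine h4.trans ?_
      push_cast
      exact mul_le_mul_of_nonneg_right (Nat.le_ceil _) (by positivity))
  push_cast at h6
  exact h6

/-- close caps, close slopes -/
theorem slope_close (hcd : c ≤ d) (hd : d ≤ 2 * c) (hcK : c ≤ K) {i : ℕ} {τ τ' : Z2}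
    (h : Cap (F.n i) c τ) (h' : Cap (F.n i) c τ')
    (hs : ∀ k, τ' k / 2 ^ ((d - c) * F.n i) = τ k / 2 ^ ((d - c) * F.n i)) (k : Fin 2) :
    |F.s i c τ' k - F.s i c τ k| ≤ 3 * F.C * (1 / 2 : ℝ) ^ (F.m (2 * c - d) i) := by
  have hC := C_nonneg F
  have h1 := (F.slp i).lip c τ' τ k hcK h' h
  have h2 : ∀ k, |((τ' k : ℤ) : ℝ) - τ k| ≤ 2 ^ ((d - c) * F.n i) := by
    intro k
    have h3 := close_of_ediv (a := τ' k) (b := τ k) (N := 2 ^ ((d - c) * F.n i)) (by positivity) (by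
      push_cast
      exact hs k)
    push_cast at h3
    exact h3
  have h3 : (1:ℝ) ≤ 2 ^ ((d - c) * F.n i) := one_le_pow₀ (by norm_num)
  have h4 : F.C * (|((τ' 0 : ℤ) : ℝ) - τ 0| + |((τ' 1 : ℤ) : ℝ) - τ 1| + 1) ≤
      3 * F.C * 2 ^ ((d - c) * F.n i) := by
    have := h2 0
    have := h2 1
    nlinarith
  refine h1.trans ?_
  rw [div_le_iff₀ (by positivity), half_pow]
  refine h4.trans (le_of_eq ?_)
  rw [pow_split F hcd hd i]
  field_simp

end caps

section rel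

variable {K : ℕ} (F : Flg K) {c d : ℕ}

/-- the cell of the ball -/
def bo (c : ℕ) : F.S.RV Z2 := fun i ω k => (F.N c i ω).o k / 2 ^ (c * F.n i)

theorem bo_eq (c : ℕ) (i : ℕ) (ω : F.S.Ω i) (k : Fin 2) : bo F c i ω k = ⌊xx F c i ω k⌋ := by
  unfold bo xx
  rw [floor_div_pow]

theorem ball_eq (c : ℕ) : F.ball c = Sys.pr (F.T c) (bo F c) := rfl

theorem tame_bo (hK : 1 ≤ K) (hc : c ≤ K) : Tame (bo F c) :=
  (tame_ball F hK hc).mono (Eventually.of_forall fun _ _ _ _ _ e => congrArg Prod.snd e)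

theorem pos_tm (i : ℕ) (ω : F.S.Ω i) (k : Fin 2) : pos (F.ln d i ω) (tm F c d i ω) k =
    xx F d i ω k - ⌊xx F d i ω k⌋ + tm F c d i ω * F.s i d (F.N d i ω).τ k := rfl

theorem tm_abs (i : ℕ) (ω : F.S.Ω i) : 0 ≤ tm F c d i ω ∧ tm F c d i ω ≤ 1 := by
  have hp : (0:ℤ) < 2 ^ (ds F c d i) := by positivity
  have h1 := Int.emod_nonneg (F.T c i ω) hp.ne'
  have h2 := Int.emod_lt_of_pos (F.T c i ω) hp
  have hp' : (0:ℝ) < 2 ^ (ds F c d i) := by positivity
  have h1' : (0:ℝ) ≤ ((F.T c i ω % 2 ^ (ds F c d i) : ℤ) : ℝ) := by exact_mod_cast h1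
  have h2' : ((F.T c i ω % 2 ^ (ds F c d i) : ℤ) : ℝ) ≤ 2 ^ (ds F c d i) := by exact_mod_cast h2.le
  exact ⟨div_nonneg h1' hp'.le, (div_le_one hp').2 h2'⟩

theorem hCC (F : Flg K) : 0 ≤ (F.C + 2) * K := by
  have := C_nonneg F
  positivity

/-- the distance of the ball coordinates, up to a constant -/
theorem geo3 (hcd : c ≤ d) (hd : d ≤ 2 * c) (hdK : d ≤ K) {i : ℕ} {ω : F.S.Ω i}
    (hω : 0 < (F.S.P i).w ω) (k : Fin 2) :
    |xx F c i ω k - 2 ^ (ds F c d i) * (xx F d i ω k + tm F c d i ω * F.s i d (F.N d i ω).τ k)| ≤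
      (F.C + 2) * K := by
  refine (geo1 (hg_of F hcd hdK) hcd hd hω k).trans ?_
  have h1 := hCC F
  have h2 := hp_le_one (F.m (2 * c - d) i)
  nlinarith

/-- the time blocks -/
theorem fn_T_up (hcd : c ≤ d) (hdK : d ≤ K) : Sys.Fn (F.T d) (F.T c) :=
  Eventually.of_forall fun i ω ω' hω hω' e => by
    have h1 := (hg_of F hcd hdK i ω hω).T
    have h2 := (hg_of F hcd hdK i ω' hω').T
    have e' : (F.N c i ω).T = (F.N c i ω').T := e
    show (F.N d i ω).T = (F.N d i ω').T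
    rw [h1, h2, e']

/-- the time block of level `c` from the relative time -/
theorem fn_T_tm (hcd : c ≤ d) (hdK : d ≤ K) :
    Sys.Fn (F.T c) (Sys.pr (dg (ds F c d) (tm F c d)) (F.T d)) :=
  Eventually.of_forall fun i ω ω' hω hω' e => by
    simp only [pr_apply, Prod.mk.injEq] at e
    have e1 : fl1 (ds F c d i) (tm F c d i ω) = fl1 (ds F c d i) (tm F c d i ω') := e.1
    rw [fl1_tm, fl1_tm] at e1
    have h1 := T_eq (hg_of F hcd hdK) hω
    have h2 := T_eq (hg_of F hcd hdK) hω'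
    rw [h1, h2, e1, e.2]

theorem fn_tm_T : Sys.Fn (dg (ds F c d) (tm F c d)) (F.T c) :=
  Eventually.of_forall fun i ω ω' _ _ e => by
    have e' : F.T c i ω = F.T c i ω' := e
    show fl1 _ _ = fl1 _ _
    rw [fl1_tm, fl1_tm, e']

/-- **`ball c` from the coarse point and `ball d`** -/
theorem z_ball (hK : 1 ≤ K) (hcd : c ≤ d) (hd : d ≤ 2 * c) (hdK : d ≤ K) :
    F.S.hc (F.ball c) (Sys.pr (pqs (ds F c d) (pt (F.ln d) (tm F c d))) (F.ball d)) = 0 := by
  have hcK : c ≤ K := hcd.trans hdK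
  rw [ball_eq]
  refine hc_zero_pair (tame_T F hK hcK) (tame_bo F hK hcK) ?_ ?_
  · refine hc_fn ?_
    filter_upwards [fn_T_tm F hcd hdK] with i hi ω ω' hω hω' e
    refine hi ω ω' hω hω' ?_
    simp only [pr_apply, Prod.mk.injEq] at e ⊢
    exact ⟨congrArg Prod.fst e.1, congrArg Prod.fst e.2⟩
  · refine zero_vec (⌈1 + 2 * ((F.C + 2) * K)⌉₊ + 1) _ _ ?_
    refine Eventually.of_forall fun i ω ω' hω hω' e k => ?_
    simp only [pr_apply, Prod.mk.injEq] at e
    obtain ⟨e1, e2⟩ := e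
    have f1 : fl (ds F c d i) (pos (F.ln d i ω') (tm F c d i ω')) =
      fl (ds F c d i) (pos (F.ln d i ω) (tm F c d i ω)) := congrArg Prod.snd e1
    have f2 := fl_close1 f1 k
    have f3 : bo F d i ω' k = bo F d i ω k := congrFun (congrArg Prod.snd e2) k
    rw [bo_eq, bo_eq] at f3
    rw [pos_tm, pos_tm, f3] at f2
    have g1 := geo3 F hcd hd hdK hω k
    have g2 := geo3 F hcd hd hdK hω' k
    rw [bo_eq, bo_eq]
    refine (floor_near (C := ⌈1 + 2 * ((F.C + 2) * K)⌉₊) ?_).trans (le_of_eq (by push_cast; rfl))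
    refine le_trans ?_ (Nat.le_ceil _)
    set p := (2:ℝ) ^ (ds F c d i) with hp
    have hp0 : 0 < p := by positivity
    have e3 : p * (1 / 2 : ℝ) ^ (ds F c d i) = 1 := by
      rw [half_pow, ← hp]
      field_simp
    have e4 : |p * (xx F d i ω' k + tm F c d i ω' * F.s i d (F.N d i ω').τ k) -
        p * (xx F d i ω k + tm F c d i ω * F.s i d (F.N d i ω).τ k)| ≤ 1 := by
      rw [← mul_sub, abs_mul, abs_of_pos hp0, ← e3]
      refine mul_le_mul_of_nonneg_left (le_trans (le_of_eq ?_) f2) hp0.le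
      congr 1
      ring
    have e5 : xx F c i ω' k - xx F c i ω k =
        (xx F c i ω' k - p * (xx F d i ω' k + tm F c d i ω' * F.s i d (F.N d i ω').τ k)) +
        (p * (xx F d i ω' k + tm F c d i ω' * F.s i d (F.N d i ω').τ k) -
          p * (xx F d i ω k + tm F c d i ω * F.s i d (F.N d i ω).τ k)) +
        -(xx F c i ω k - p * (xx F d i ω k + tm F c d i ω * F.s i d (F.N d i ω).τ k)) := by ring
    rw [e5]
    rw [← abs_neg] at g1
    refine (abs_add_three _ _ _).trans ?_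
    linarith

/-- `ball d` from `ball c` -/
theorem z_ball_down (hK : 1 ≤ K) (hcd : c ≤ d) (hd : d ≤ 2 * c) (hdK : d ≤ K) :
    F.S.hc (F.ball d) (F.ball c) = 0 := by
  rw [ball_eq F d]
  refine hc_zero_pair (tame_T F hK hdK) (tame_bo F hK hdK) ?_ ?_
  · refine hc_fn ?_
    filter_upwards [fn_T_up F hcd hdK] with i hi ω ω' hω hω' e
    exact hi ω ω' hω hω' (congrArg Prod.fst e)
  · refine zero_vec (⌈3 + 2 * ((F.C + 2) * K)⌉₊ + 1) _ _ ?_
    refine Eventually.of_forall fun i ω ω' hω hω' e k => ?_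
    have f3 : bo F c i ω' k = bo F c i ω k := congrFun (congrArg Prod.snd e) k
    rw [bo_eq, bo_eq] at f3
    have f4 : |xx F c i ω' k - xx F c i ω k| ≤ 1 := by
      have a1 := Int.floor_le (xx F c i ω' k)
      have a2 := Int.lt_floor_add_one (xx F c i ω' k)
      have a3 := Int.floor_le (xx F c i ω k)
      have a4 := Int.lt_floor_add_one (xx F c i ω k)
      rw [f3] at a1 a2
      rw [abs_le]
      constructor <;> linarith
    have g1 := geo3 F hcd hd hdK hω k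
    have g2 := geo3 F hcd hd hdK hω' k
    rw [bo_eq, bo_eq]
    refine (floor_near (C := ⌈3 + 2 * ((F.C + 2) * K)⌉₊) ?_).trans (le_of_eq (by push_cast; rfl))
    refine le_trans ?_ (Nat.le_ceil _)
    set p := (2:ℝ) ^ (ds F c d i) with hp
    have hp1 : 1 ≤ p := one_le_pow₀ (by norm_num)
    have hp0 : 0 < p := by linarith
    have hsl : ∀ ω, 0 < (F.S.P i).w ω → |tm F c d i ω * F.s i d (F.N d i ω).τ k| ≤ 1 := by
      intro ω hω
      have b1 := tm_abs F (c := c) (d := d) i ω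
      have b2 := slope_le' (hg_of F hcd hdK) hdK hω k
      rw [abs_mul, abs_of_nonneg b1.1]
      calc tm F c d i ω * |F.s i d (F.N d i ω).τ k| ≤ 1 * 1 :=
            mul_le_mul b1.2 b2 (abs_nonneg _) zero_le_one
        _ = 1 := one_mul _
    have s1 := hsl ω hω
    have s2 := hsl ω' hω'
    set a := xx F d i ω k with ha
    set a' := xx F d i ω' k with ha'
    set b := tm F c d i ω * F.s i d (F.N d i ω).τ k with hb
    set b' := tm F c d i ω' * F.s i d (F.N d i ω').τ k with hb'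
    have e5 : |p * ((a' + b') - (a + b))| ≤ 1 + 2 * ((F.C + 2) * K) := by
      have e6 : p * ((a' + b') - (a + b)) = -(xx F c i ω' k - p * (a' + b')) +
        (xx F c i ω' k - xx F c i ω k) + (xx F c i ω k - p * (a + b)) := by ring
      rw [e6]
      rw [← abs_neg] at g2
      refine (abs_add_three _ _ _).trans ?_
      linarith
    rw [abs_mul, abs_of_pos hp0] at e5
    have e7 : |(a' + b') - (a + b)| ≤ 1 + 2 * ((F.C + 2) * K) := by
      have := abs_nonneg ((a' + b') - (a + b))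
      nlinarith
    have e8 : a' - a = ((a' + b') - (a + b)) + (-b') + b := by ring
    rw [e8]
    rw [← abs_neg] at s2
    refine (abs_add_three _ _ _).trans ?_
    linarith

/-- the coarse point from `ball c` -/
theorem z_pq (hK : 1 ≤ K) (hcd : c ≤ d) (hd : d ≤ 2 * c) (hdK : d ≤ K) :
    F.S.hc (pqs (ds F c d) (pt (F.ln d) (tm F c d))) (F.ball c) = 0 := by
  have hcK : c ≤ K := hcd.trans hdK
  have hP := par_ds F hK hcd hd
  have hl : LnA (F.ln d) := ln_ok' (hg_of F hcd hdK) hdK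
  have ht := tm_t01 F c d
  have t1 : Tame (pqs (ds F c d) (pt (F.ln d) (tm F c d))) := Fi.tame_pqs hP.bds hl ht
  rw [← hc_cond_zero t1 (tame_ball F hK hdK) (z_ball_down F hK hcd hd hdK)]
  refine hc_zero_pair (X := dg (ds F c d) (tm F c d)) (t01_tame ht hP.bds)
    (tame_posv hP.bds hl (t01_abs ht)) ?_ ?_
  · refine hc_fn ?_
    filter_upwards [fn_tm_T F (c := c) (d := d)] with i hi ω ω' hω hω' e
    exact hi ω ω' hω hω' (congrArg (fun q => q.2.1) e)
  · refine hc_zero_fl (ds F c d) ⌈1 + 2 * ((F.C + 2) * K)⌉₊ (fun i ω => pos (F.ln d i ω) (tm F c d i ω)) _ ?_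
    refine Eventually.of_forall fun i ω ω' hω hω' e k => ?_
    simp only [pr_apply, Prod.mk.injEq] at e
    obtain ⟨e1, e2⟩ := e
    have f3 : bo F c i ω' k = bo F c i ω k := congrFun (congrArg Prod.snd e2) k
    have f3' : bo F d i ω' k = bo F d i ω k := congrFun (congrArg Prod.snd e1) k
    rw [bo_eq, bo_eq] at f3 f3'
    have f4 : |xx F c i ω' k - xx F c i ω k| ≤ 1 := by
      have a1 := Int.floor_le (xx F c i ω' k)
      have a2 := Int.lt_floor_add_one (xx F c i ω' k)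
      have a3 := Int.floor_le (xx F c i ω k)
      have a4 := Int.lt_floor_add_one (xx F c i ω k)
      rw [f3] at a1 a2
      rw [abs_le]
      constructor <;> linarith
    have g1 := geo3 F hcd hd hdK hω k
    have g2 := geo3 F hcd hd hdK hω' k
    rw [pos_tm, pos_tm, f3']
    set p := (2:ℝ) ^ (ds F c d i) with hp
    have hp0 : 0 < p := by positivity
    set a := xx F d i ω k with ha
    set a' := xx F d i ω' k with ha'
    set b := tm F c d i ω * F.s i d (F.N d i ω).τ k with hb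
    set b' := tm F c d i ω' * F.s i d (F.N d i ω').τ k with hb'
    have e5 : |p * ((a' + b') - (a + b))| ≤ 1 + 2 * ((F.C + 2) * K) := by
      have e6 : p * ((a' + b') - (a + b)) = -(xx F c i ω' k - p * (a' + b')) +
        (xx F c i ω' k - xx F c i ω k) + (xx F c i ω k - p * (a + b)) := by ring
      rw [e6]
      rw [← abs_neg] at g2
      refine (abs_add_three _ _ _).trans ?_
      linarith
    rw [abs_mul, abs_of_pos hp0] at e5
    have e7 : a' - ⌊a⌋ + b' - (a - ⌊a⌋ + b) = (a' + b') - (a + b) := by ring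
    rw [e7, half_pow, ← hp, mul_one_div, le_div_iff₀ hp0, mul_comm]
    exact e5.trans (Nat.le_ceil _)

/-! ### pieces and tubes -/

/-- the position at the precision of the piece -/
theorem xx_piece (hcd : c ≤ d) (hd : d ≤ 2 * c) (i : ℕ) (ω ω' : F.S.Ω i) (k : Fin 2) {B : ℝ}
    (h : |xx F c i ω' k - xx F c i ω k| ≤ B * (1 / 2 : ℝ) ^ (F.m (2 * c - d) i)) :
    |(F.N c i ω').o k / 2 ^ ((d - c) * F.n i) - (F.N c i ω).o k / 2 ^ ((d - c) * F.n i)| ≤
      (⌈B⌉₊ : ℤ) + 1 := by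
  have hp : (0:ℝ) < 2 ^ (c * F.n i) := by positivity
  have e1 : ((F.N c i ω').o k : ℝ) - (F.N c i ω).o k =
      2 ^ (c * F.n i) * (xx F c i ω' k - xx F c i ω k) := by
    unfold xx
    field_simp
  have h2 : |((F.N c i ω').o k : ℝ) - (F.N c i ω).o k| ≤ B * 2 ^ ((d - c) * F.n i) := by
    rw [e1, abs_mul, abs_of_pos hp]
    refine (mul_le_mul_of_nonneg_left h hp.le).trans (le_of_eq ?_)
    rw [pow_split F hcd hd i, half_pow]
    field_simp
  have h6 := ediv_close (a := (F.N c i ω').o k) (b := (F.N c i ω).o k) (N := 2 ^ ((d - c) * F.n i))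
    (C := ⌈B⌉₊) (by positivity) (by
      refine h2.trans ?_
      push_cast
      exact mul_le_mul_of_nonneg_right (Nat.le_ceil _) (by positivity))
  push_cast at h6
  exact h6

theorem piece_xx (hcd : c ≤ d) (hd : d ≤ 2 * c) (i : ℕ) (ω ω' : F.S.Ω i) (k : Fin 2)
    (h : (F.N c i ω').o k / 2 ^ ((d - c) * F.n i) = (F.N c i ω).o k / 2 ^ ((d - c) * F.n i)) :
    |xx F c i ω' k - xx F c i ω k| ≤ (1 / 2 : ℝ) ^ (F.m (2 * c - d) i) := by
  have h3 := close_of_ediv (a := (F.N c i ω').o k) (b := (F.N c i ω).o k)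
    (N := 2 ^ ((d - c) * F.n i)) (by positivity) (by
      push_cast
      exact h)
  push_cast at h3
  have hp : (0:ℝ) < 2 ^ (c * F.n i) := by positivity
  unfold xx
  rw [← sub_div, abs_div, abs_of_pos hp, div_le_iff₀ hp]
  refine h3.trans (le_of_eq ?_)
  rw [pow_split F hcd hd i, half_pow]
  field_simp

/-- **`sig c d` from the tube of precision `m` of `ln c` and `ball c`** -/
theorem z_sig (hcd : c ≤ d) (hd : d ≤ 2 * c) (hcK : c ≤ K) {T : Type*}
    (Y : F.S.RV T) : F.S.hc (F.sig c d) (Sys.pr (Sys.pr (tbs (F.m (2 * c - d)) (F.ln c)) (F.ball c)) Y) = 0 := by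
  refine zero_nd (max (⌈(1:ℝ)⌉₊ + 1) (⌈F.C * (2 * 1 + 1)⌉₊ + 1)) _ _ ?_
  refine Eventually.of_forall fun i ω ω' hω hω' e => ?_
  simp only [pr_apply, Prod.mk.injEq] at e
  obtain ⟨⟨e1, e2⟩, -⟩ := e
  have f1 : fl (F.m (2 * c - d) i) (F.ln c i ω').1 = fl (F.m (2 * c - d) i) (F.ln c i ω).1 :=
    congrArg Prod.fst e1
  have f2 : fl (F.m (2 * c - d) i) (F.ln c i ω').2 = fl (F.m (2 * c - d) i) (F.ln c i ω).2 :=
    congrArg Prod.snd e1
  refine ⟨congrArg Prod.fst e2, fun k => ?_, fun k => ?_⟩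
  · have g := cap_close F hcd hd hcK (B := 1) (cap_of F hω c hcK) (cap_of F hω' c hcK)
      (fun k => by rw [one_mul]; exact fl_close1 f2 k) k
    refine g.trans ?_
    have := le_max_right (⌈(1:ℝ)⌉₊ + 1) (⌈F.C * (2 * 1 + 1)⌉₊ + 1)
    exact_mod_cast this
  · have f3 : bo F c i ω' k = bo F c i ω k := congrFun (congrArg Prod.snd e2) k
    rw [bo_eq, bo_eq] at f3
    have f4 := fl_close1 f1 k
    have f5 : |xx F c i ω' k - xx F c i ω k| ≤ 1 * (1 / 2 : ℝ) ^ (F.m (2 * c - d) i) := by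
      rw [one_mul]
      refine le_trans (le_of_eq ?_) f4
      congr 1
      show _ = Int.fract (xx F c i ω' k) - Int.fract (xx F c i ω k)
      unfold Int.fract
      rw [f3]
      ring
    have g := xx_piece F hcd hd i ω ω' k f5
    refine g.trans ?_
    have := le_max_left (⌈(1:ℝ)⌉₊ + 1) (⌈F.C * (2 * 1 + 1)⌉₊ + 1)
    exact_mod_cast this

/-- the ball from the piece -/
theorem fn_ball_sig (hcd : c ≤ d) (hd : d ≤ 2 * c) : Sys.Fn (F.ball c) (F.sig c d) :=
  Eventually.of_forall fun i ω ω' _ _ e => by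
    have e1 : (F.N c i ω).T = (F.N c i ω').T := by
      have h : (F.sig c d i ω).T = (F.sig c d i ω').T := congrArg Nd.T e
      exact h
    have e2 : ∀ k, (F.N c i ω).o k / 2 ^ ((d - c) * F.n i) = (F.N c i ω').o k / 2 ^ ((d - c) * F.n i) := by
      intro k
      have h : (F.sig c d i ω).o k = (F.sig c d i ω').o k := by rw [e]
      exact h
    have e3 : ∀ (a : ℤ), a / 2 ^ (c * F.n i) = (a / 2 ^ ((d - c) * F.n i)) / 2 ^ ((2 * c - d) * F.n i) := by
      intro a
      rw [Int.ediv_ediv_of_nonneg (by positivity), ← pow_add]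
      congr 2
      rw [← add_mul]
      congr 1
      omega
    show (_, _) = (_, _)
    refine Prod.ext e1 (funext fun k => ?_)
    show (F.N c i ω).o k / 2 ^ (c * F.n i) = (F.N c i ω').o k / 2 ^ (c * F.n i)
    rw [e3, e3, e2 k]

/-- the tube of precision `m` of `ln c` from `sig c d` -/
theorem z_tb_sig (hK : 1 ≤ K) (hcd : c ≤ d) (hd : d ≤ 2 * c) (hcK : c ≤ K) {B : ℕ} (hB : 3 * F.C ≤ B)
    (hB1 : 1 ≤ B) : F.S.hc (tbs (F.m (2 * c - d)) (F.ln c)) (F.sig c d) = 0 := by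
  have hl : LnA (F.ln c) := ln_ok (hg_of F (le_refl c) hcK) hcK
  have hbd : ∃ q : ℝ, ∀ᶠ i in (uf : Filter ℕ), (F.m (2 * c - d) i : ℝ) ≤ q * F.S.L i :=
    bd_m F hK (2 * c - d)
  have t1 : Tame (tbs (F.m (2 * c - d)) (F.ln c)) := Fi.tame_tbs hbd hl
  have e0 : tbs (F.m (2 * c - d)) (F.ln c) = Sys.pr (dgv (F.m (2 * c - d)) (fun i ω => (F.ln c i ω).1))
    (dgv (F.m (2 * c - d)) (fun i ω => (F.ln c i ω).2)) := rfl
  rw [e0]
  have t2 : Tame (dgv (F.m (2 * c - d)) (fun i ω => (F.ln c i ω).1)) :=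
    t1.mono (Eventually.of_forall fun _ _ _ _ _ e => congrArg Prod.fst e)
  have t3 : Tame (dgv (F.m (2 * c - d)) (fun i ω => (F.ln c i ω).2)) :=
    t1.mono (Eventually.of_forall fun _ _ _ _ _ e => congrArg Prod.snd e)
  refine hc_zero_pair t2 t3 ?_ ?_
  · refine hc_zero_fl _ B _ _ ?_
    filter_upwards [fn_ball_sig F hcd hd] with i hb ω ω' hω hω' e k
    have f3 : bo F c i ω' k = bo F c i ω k := congrFun (congrArg Prod.snd (hb ω' ω hω' hω e)) k
    rw [bo_eq, bo_eq] at f3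
    have f5 : (F.sig c d i ω').o k = (F.sig c d i ω).o k := by rw [e]
    have f6 := piece_xx F hcd hd i ω ω' k f5
    have e1 : (F.ln c i ω').1 k - (F.ln c i ω).1 k = xx F c i ω' k - xx F c i ω k := by
      show Int.fract (xx F c i ω' k) - Int.fract (xx F c i ω k) = _
      unfold Int.fract
      rw [f3]
      ring
    rw [e1]
    have hB1' : (1:ℝ) ≤ B := by exact_mod_cast hB1
    have := hp_pos (F.m (2 * c - d) i)
    nlinarith
  · refine hc_zero_fl _ B _ _ ?_
    refine Eventually.of_forall fun i ω ω' hω hω' e k => ?_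
    have f5 : ∀ k, (F.N c i ω').τ k / 2 ^ ((d - c) * F.n i) = (F.N c i ω).τ k / 2 ^ ((d - c) * F.n i) := by
      intro k
      have h : (F.sig c d i ω').τ k = (F.sig c d i ω).τ k := by rw [e]
      exact h
    refine (slope_close F hcd hd hcK (cap_of F hω c hcK) (cap_of F hω' c hcK) f5 k).trans ?_
    exact mul_le_mul_of_nonneg_right hB (hp_pos _).le

/-- `sig c d` and `(tube of ln c, ball c)` -/
theorem z_sig' (hK : 1 ≤ K) (hcd : c ≤ d) (hd : d ≤ 2 * c) (hcK : c ≤ K) :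
    F.S.hc (Sys.pr (tbs (F.m (2 * c - d)) (F.ln c)) (F.ball c)) (F.sig c d) = 0 := by
  have hl : LnA (F.ln c) := ln_ok (hg_of F (le_refl c) hcK) hcK
  refine hc_zero_pair (Fi.tame_tbs (bd_m F hK (2 * c - d)) hl) (tame_ball F hK hcK)
    (z_tb_sig F hK hcd hd hcK (B := ⌈3 * F.C⌉₊ + 1) ?_ (by omega)) (hc_fn (fn_ball_sig F hcd hd))
  push_cast
  have := Nat.le_ceil (3 * F.C)
  linarith

theorem sig_self (d : ℕ) : F.sig d d = F.N d := by
  funext i ω
  show (⟨fun k => (F.N d i ω).τ k / 2 ^ ((d - d) * F.n i), fun k => (F.N d i ω).o k / 2 ^ ((d - d) * F.n i),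
    (F.N d i ω).T⟩ : Nd) = _
  simp

theorem m_self (d : ℕ) : F.m (2 * d - d) = F.m d := by
  have : 2 * d - d = d := by omega
  rw [this]

/-- **the node and the tube in its ball** -/
theorem z_node (hdK : d ≤ K) {T : Type*} (Y : F.S.RV T) :
    F.S.hc (F.N d) (Sys.pr (Sys.pr (tbs (F.m d) (F.ln d)) (F.ball d)) Y) = 0 := by
  have h := z_sig F (le_refl d) (by omega : d ≤ 2 * d) hdK Y
  rw [sig_self, m_self] at h
  exact h

theorem z_node' (hK : 1 ≤ K) (hdK : d ≤ K) :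
    F.S.hc (Sys.pr (tbs (F.m d) (F.ln d)) (F.ball d)) (F.N d) = 0 := by
  have h := z_sig' F hK (le_refl d) (by omega : d ≤ 2 * d) hdK
  rw [sig_self, m_self] at h
  exact h

/-! ### pieces and tubelets -/

theorem K_pos (F : Flg K) : 1 ≤ K := by
  refine Nat.pos_of_ne_zero ?_
  rintro rfl
  obtain ⟨j, hj⟩ := (F.S.Ltop.eventually_gt_atTop 0).exists
  rw [F.L_eq j, zero_mul] at hj
  exact lt_irrefl _ hj

/-- `sig c d` from the tubelet and `ball d` -/
theorem z_tl (hcd : c ≤ d) (hd : d ≤ 2 * c) (hdK : d ≤ K) {T : Type*} (Y : F.S.RV T) :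
    F.S.hc (F.sig c d) (Sys.pr (Sys.pr (tl (ds F c d) (F.m d) (F.ln d) (tm F c d)) (F.ball d)) Y) = 0 := by
  have hcK : c ≤ K := hcd.trans hdK
  set B := 1 + 2 * ((F.C + 2) * K) with hB
  have hB0 := hCC F
  refine zero_nd (max (⌈B⌉₊ + 1) (⌈F.C * (2 * B + 1)⌉₊ + 1)) _ _ ?_
  filter_upwards [fn_T_tm F hcd hdK] with i hT ω ω' hω hω' e
  simp only [pr_apply, Prod.mk.injEq] at e
  obtain ⟨⟨e1, e2⟩, -⟩ := e
  have hPa := (par_ds F (K_pos F) hcd hd).add i
  have hm : F.m d i - ds F c d i = F.m (2 * c - d) i := by omega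
  have f0 : fl1 (ds F c d i) (tm F c d i ω') = fl1 (ds F c d i) (tm F c d i ω) := congrArg (fun q => q.1) e1
  have f1 : fl (F.m d i) (pos (F.ln d i ω') (qa (ds F c d i) (tm F c d i ω'))) =
    fl (F.m d i) (pos (F.ln d i ω) (qa (ds F c d i) (tm F c d i ω))) := congrArg (fun q => q.2.1) e1
  have f2 : fl (F.m d i - ds F c d i) (F.ln d i ω').2 = fl (F.m d i - ds F c d i) (F.ln d i ω).2 :=
    congrArg (fun q => q.2.2) e1
  rw [hm] at f2
  rw [qa_tm, qa_tm] at f1
  have hT' : F.T c i ω' = F.T c i ω := hT ω' ω hω' hω (Prod.ext f0 (congrArg Prod.fst e2))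
  refine ⟨hT', fun k => ?_, fun k => ?_⟩
  · have g := cap_close F hcd hd hcK (B := B) (cap_of F hω c hcK) (cap_of F hω' c hcK)
      (fun k => by
        have a1 := fl_close1 f2 k
        have a2 := geo2 (hg_of F hcd hdK) hB0 hcd hω k
        have a3 := geo2 (hg_of F hcd hdK) hB0 hcd hω' k
        have a1' : |F.s i d (F.N d i ω').τ k - F.s i d (F.N d i ω).τ k| ≤
          (1 / 2 : ℝ) ^ (F.m (2 * c - d) i) := a1
        have e5 : F.s i c (F.N c i ω').τ k - F.s i c (F.N c i ω).τ k =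
          -(F.s i d (F.N d i ω').τ k - F.s i c (F.N c i ω').τ k) +
          (F.s i d (F.N d i ω').τ k - F.s i d (F.N d i ω).τ k) +
          (F.s i d (F.N d i ω).τ k - F.s i c (F.N c i ω).τ k) := by ring
        rw [e5]
        rw [← abs_neg] at a3
        refine (abs_add_three _ _ _).trans ?_
        rw [hB]
        linarith) k
    refine g.trans ?_
    have := le_max_right (⌈B⌉₊ + 1) (⌈F.C * (2 * B + 1)⌉₊ + 1)
    exact_mod_cast this
  · have f3 : bo F d i ω' k = bo F d i ω k := congrFun (congrArg Prod.snd e2) k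
    rw [bo_eq, bo_eq] at f3
    have a1 := fl_close1 f1 k
    rw [pos_tm, pos_tm, f3] at a1
    have g1 := geo1 (hg_of F hcd hdK) hcd hd hω k
    have g2 := geo1 (hg_of F hcd hdK) hcd hd hω' k
    have f5 : |xx F c i ω' k - xx F c i ω k| ≤ B * (1 / 2 : ℝ) ^ (F.m (2 * c - d) i) := by
      set p := (2:ℝ) ^ (ds F c d i) with hp
      have hp0 : 0 < p := by positivity
      set a := xx F d i ω k with ha
      set a' := xx F d i ω' k with ha'
      set b := tm F c d i ω * F.s i d (F.N d i ω).τ k with hb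
      set b' := tm F c d i ω' * F.s i d (F.N d i ω').τ k with hb'
      have e6 : a' - ⌊a⌋ + b' - (a - ⌊a⌋ + b) = (a' + b') - (a + b) := by ring
      rw [e6] at a1
      have e7 : |p * (a' + b') - p * (a + b)| ≤ (1 / 2 : ℝ) ^ (F.m (2 * c - d) i) := by
        rw [← mul_sub, abs_mul, abs_of_pos hp0]
        refine (mul_le_mul_of_nonneg_left a1 hp0.le).trans (le_of_eq ?_)
        have e8 : (1 / 2 : ℝ) ^ (F.m d i) = (1 / 2) ^ (ds F c d i) * (1 / 2) ^ (F.m (2 * c - d) i) := by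
          rw [← pow_add, hPa]
        rw [e8, half_pow (ds F c d i), ← hp]
        field_simp
      have e5 : xx F c i ω' k - xx F c i ω k = (xx F c i ω' k - p * (a' + b')) +
        (p * (a' + b') - p * (a + b)) + -(xx F c i ω k - p * (a + b)) := by ring
      rw [e5]
      rw [← abs_neg] at g1
      refine (abs_add_three _ _ _).trans ?_
      rw [hB]
      linarith
    have g := xx_piece F hcd hd i ω ω' k f5
    refine g.trans ?_
    have := le_max_left (⌈B⌉₊ + 1) (⌈F.C * (2 * B + 1)⌉₊ + 1)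
    exact_mod_cast this

/-- the tubelet and `ball d` from `sig c d` -/
theorem z_tl' (hcd : c ≤ d) (hd : d ≤ 2 * c) (hdK : d ≤ K) :
    F.S.hc (Sys.pr (tl (ds F c d) (F.m d) (F.ln d) (tm F c d)) (F.ball d)) (F.sig c d) = 0 := by
  have hK := K_pos F
  have hcK : c ≤ K := hcd.trans hdK
  have hP := par_ds F hK hcd hd
  have hl : LnA (F.ln d) := ln_ok' (hg_of F hcd hdK) hdK
  have ht := tm_t01 F c d
  have tb : Tame (F.ball d) := tame_ball F hK hdK
  have ttl : Tame (tl (ds F c d) (F.m d) (F.ln d) (tm F c d)) := tame_tl hP hl ht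
  have zb : F.S.hc (F.ball d) (F.sig c d) = 0 :=
    hc_zero_trans tb (tame_ball F hK hcK) (z_ball_down F hK hcd hd hdK) (hc_fn (fn_ball_sig F hcd hd))
  refine hc_zero_pair ttl tb ?_ zb
  rw [← hc_cond_zero ttl tb zb]
  set s := ds F c d with hs
  set t := tm F c d with htd
  have tds : Tame (dg s t) := t01_tame ht hP.bds
  have tps : Tame (dgv (F.m d) (ps s (F.ln d) t)) := tame_ps hP.bd hl ht
  have tdi : Tame (dgv (F.m (2 * c - d)) (dir (F.ln d))) := tame_dirv hP.bdm hl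
  have h1 : F.S.hc (Sys.pr (dg s t) (Sys.pr (dgv (F.m d) (ps s (F.ln d) t))
      (dgv (F.m (2 * c - d)) (dir (F.ln d))))) (Sys.pr (F.ball d) (F.sig c d)) = 0 := by
    refine hc_zero_pair tds (tps.pr tdi) ?_ (hc_zero_pair tps tdi ?_ ?_)
    · refine hc_fn ?_
      filter_upwards [fn_tm_T F (c := c) (d := d), fn_T_sig F c d] with i h1 h2 ω ω' hω hω' e
      exact h1 ω ω' hω hω' (h2 ω ω' hω hω' (congrArg Prod.snd e))
    · refine hc_zero_fl _ (⌈1 + 2 * ((F.C + 2) * K)⌉₊) _ _ ?_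
      filter_upwards [] with i ω ω' hω hω' e k
      simp only [pr_apply, Prod.mk.injEq] at e
      have f3 : bo F d i ω' k = bo F d i ω k := congrFun (congrArg Prod.snd e.1) k
      rw [bo_eq, bo_eq] at f3
      have f5 : (F.sig c d i ω').o k = (F.sig c d i ω).o k := by rw [e.2]
      have f6 := piece_xx F hcd hd i ω ω' k f5
      have g1 := geo1 (hg_of F hcd hdK) hcd hd hω k
      have g2 := geo1 (hg_of F hcd hdK) hcd hd hω' k
      show |pos (F.ln d i ω') (qa (ds F c d i) (tm F c d i ω')) k -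
        pos (F.ln d i ω) (qa (ds F c d i) (tm F c d i ω)) k| ≤ _
      rw [qa_tm, qa_tm, pos_tm, pos_tm, f3]
      set p := (2:ℝ) ^ (ds F c d i) with hp
      have hp0 : 0 < p := by positivity
      set a := xx F d i ω k with ha
      set a' := xx F d i ω' k with ha'
      set b := tm F c d i ω * F.s i d (F.N d i ω).τ k with hb
      set b' := tm F c d i ω' * F.s i d (F.N d i ω').τ k with hb'
      have e6 : a' - ⌊a⌋ + b' - (a - ⌊a⌋ + b) = (a' + b') - (a + b) := by ring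
      rw [e6]
      have e7 : |p * ((a' + b') - (a + b))| ≤
          (1 + 2 * ((F.C + 2) * K)) * (1 / 2 : ℝ) ^ (F.m (2 * c - d) i) := by
        have e8 : p * ((a' + b') - (a + b)) = -(xx F c i ω' k - p * (a' + b')) +
          (xx F c i ω' k - xx F c i ω k) + (xx F c i ω k - p * (a + b)) := by ring
        rw [e8]
        rw [← abs_neg] at g2
        refine (abs_add_three _ _ _).trans ?_
        linarith
      rw [abs_mul, abs_of_pos hp0] at e7
      have e9 : (1 / 2 : ℝ) ^ (F.m d i) = (1 / 2) ^ (ds F c d i) * (1 / 2) ^ (F.m (2 * c - d) i) := by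
        rw [← pow_add, hP.add i]
      have e10 : p * |(a' + b') - (a + b)| ≤
          p * ((⌈1 + 2 * ((F.C + 2) * K)⌉₊ : ℝ) * (1 / 2 : ℝ) ^ (F.m d i)) := by
        refine e7.trans ?_
        rw [e9, half_pow (ds F c d i), ← hp]
        have e11 : p * ((⌈1 + 2 * ((F.C + 2) * K)⌉₊ : ℝ) * (1 / p * (1 / 2 : ℝ) ^ (F.m (2 * c - d) i))) =
          (⌈1 + 2 * ((F.C + 2) * K)⌉₊ : ℝ) * (1 / 2 : ℝ) ^ (F.m (2 * c - d) i) := by
          field_simp
        rw [e11]
        exact mul_le_mul_of_nonneg_right (Nat.le_ceil _) (hp_pos _).le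
      exact le_of_mul_le_mul_left e10 hp0
    · refine hc_zero_fl _ (⌈3 * F.C + 2 * ((F.C + 2) * K)⌉₊) _ _ ?_
      filter_upwards [] with i ω ω' hω hω' e k
      simp only [pr_apply, Prod.mk.injEq] at e
      have f5 : ∀ k, (F.N c i ω').τ k / 2 ^ ((d - c) * F.n i) = (F.N c i ω).τ k / 2 ^ ((d - c) * F.n i) := by
        intro k
        have h : (F.sig c d i ω').τ k = (F.sig c d i ω).τ k := by rw [e.2]
        exact h
      have a1 := slope_close F hcd hd hcK (cap_of F hω c hcK) (cap_of F hω' c hcK) f5 k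
      have a2 := geo2 (hg_of F hcd hdK) (hCC F) hcd hω k
      have a3 := geo2 (hg_of F hcd hdK) (hCC F) hcd hω' k
      show |F.s i d (F.N d i ω').τ k - F.s i d (F.N d i ω).τ k| ≤ _
      have e5 : F.s i d (F.N d i ω').τ k - F.s i d (F.N d i ω).τ k =
        (F.s i d (F.N d i ω').τ k - F.s i c (F.N c i ω').τ k) +
        (F.s i c (F.N c i ω').τ k - F.s i c (F.N c i ω).τ k) +
        -(F.s i d (F.N d i ω).τ k - F.s i c (F.N c i ω).τ k) := by ring
      rw [e5]
      rw [← abs_neg] at a2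
      refine (abs_add_three _ _ _).trans ?_
      have hq : (3 * F.C + 2 * ((F.C + 2) * K)) * (1 / 2 : ℝ) ^ (F.m (2 * c - d) i) ≤
        (⌈3 * F.C + 2 * ((F.C + 2) * K)⌉₊ : ℝ) * (1 / 2 : ℝ) ^ (F.m (2 * c - d) i) :=
        mul_le_mul_of_nonneg_right (Nat.le_ceil _) (hp_pos _).le
      linarith
  refine hc_zero_left ttl (tds.pr (tps.pr tdi)) h1 ?_
  refine Eventually.of_forall fun i ω ω' _ _ e => ?_
  simp only [pr_apply, Prod.mk.injEq] at e
  have hPa := hP.add i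
  have hm : F.m d i - s i = F.m (2 * c - d) i := by omega
  show (_, _, _) = (_, _, _)
  rw [hm]
  exact Prod.ext e.1 (Prod.ext e.2.1 e.2.2)

/-- **`sig c d` from the time block of level `c` and the node of level `d`** -/
theorem z_sig_T (hcd : c ≤ d) (hd : d ≤ 2 * c) (hdK : d ≤ K) :
    F.S.hc (F.sig c d) (Sys.pr (F.T c) (F.N d)) = 0 := by
  have hK := K_pos F
  have hcK : c ≤ K := hcd.trans hdK
  have hP := par_ds F hK hcd hd
  have hl : LnA (F.ln d) := ln_ok' (hg_of F hcd hdK) hdK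
  have ht := tm_t01 F c d
  have tb : Tame (F.ball d) := tame_ball F hK hdK
  have ttl : Tame (tl (ds F c d) (F.m d) (F.ln d) (tm F c d)) := tame_tl hP hl ht
  have tds : Tame (dg (ds F c d) (tm F c d)) := t01_tame ht hP.bds
  have ttb : Tame (tbs (F.m d) (F.ln d)) := Fi.tame_tbs hP.bd hl
  have h1 := z_tl F hcd hd hdK (Sys.pr (F.T c) (F.N d))
  have z1 : F.S.hc (dg (ds F c d) (tm F c d)) (Sys.pr (F.T c) (F.N d)) = 0 :=
    zero_more tds (hc_fn (fn_tm_T F))
  have z2 : F.S.hc (Sys.pr (tbs (F.m d) (F.ln d)) (F.ball d)) (Sys.pr (F.T c) (F.N d)) = 0 :=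
    hc_zero_mono (ttb.pr tb) (z_node' F hK hdK) (Eventually.of_forall fun _ _ _ _ _ e => congrArg Prod.snd e)
  have z3 : F.S.hc (tbs (F.m d) (F.ln d)) (Sys.pr (F.T c) (F.N d)) = 0 :=
    hc_zero_left ttb (ttb.pr tb) z2 (Eventually.of_forall fun _ _ _ _ _ e => congrArg Prod.fst e)
  have z4 : F.S.hc (F.ball d) (Sys.pr (F.T c) (F.N d)) = 0 :=
    hc_zero_left tb (ttb.pr tb) z2 (Eventually.of_forall fun _ _ _ _ _ e => congrArg Prod.snd e)
  have z5 : F.S.hc (tl (ds F c d) (F.m d) (F.ln d) (tm F c d)) (Sys.pr (F.T c) (F.N d)) = 0 :=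
    hc_zero_trans ttl (tds.pr ttb) (zero_tl_tb hP hl ht) (hc_zero_pair tds ttb z1 z3)
  have z6 := hc_zero_pair ttl tb z5 z4
  exact hc_zero_trans (tame_sig F hK hcK d) ((ttl.pr tb).pr ((tame_T F hK hcK).pr (tame_N F hK hdK))) h1
    (hc_zero_pair (ttl.pr tb) ((tame_T F hK hcK).pr (tame_N F hK hdK)) z6
      (hc_fn (Eventually.of_forall fun _ _ _ _ _ e => e)))

end rel

end Vale.Agent.P122.K931
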